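import Vale.Agent.P227.Zono.Pins

/-!
P227: every nonzero vector has a shadow map, a shear of the coordinate projection.
-/

noncomputable section

namespace Vale.Agent.P227.Zono

open MeasureTheory Set Matrix
open scoped ENNReal

variable {d : ℕ}

/-- The shadow along `a` on the coordinates other than `j`. -/
private def shade (a : Fin (d + 1) → ℝ) (j : Fin (d + 1)) :
    (Fin (d + 1) → ℝ) →ₗ[ℝ] Fin d → ℝ where
  toFun x i := x (j.succAbove i) - x j / a j * a (j.succAbove i)
  map_add' x y := by ext i; simp [add_div]; ring
  map_smul' r x := by ext i; simp; ring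

private lemma shade_apply (a : Fin (d + 1) → ℝ) (j : Fin (d + 1)) (x : Fin (d + 1) → ℝ)
    (i : Fin d) : shade a j x i = x (j.succAbove i) - x j / a j * a (j.succAbove i) := rfl

private lemma shade_det (a : Fin (d + 1) → ℝ) {j : Fin (d + 1)} (hj : a j ≠ 0)
    (x : Fin d → Fin (d + 1) → ℝ) :
    |(Matrix.of (Fin.cons a x)).det| = |a j| * |(Matrix.of fun i => shade a j (x i)).det| := by
  set M : Matrix (Fin (d + 1)) (Fin (d + 1)) ℝ := Matrix.of (Fin.cons a x) with hM
  set N : Matrix (Fin (d + 1)) (Fin (d + 1)) ℝ :=
    Matrix.of fun r k => if k = j then M r k else M r k - a k / a j * M r j with hN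
  have hdet : M.det = N.det := by
    rw [← Matrix.det_transpose M, ← Matrix.det_transpose N]
    refine Matrix.det_eq_of_forall_row_eq_smul_add_const
      (fun k => if k = j then 0 else a k / a j) j (if_pos rfl) fun k r => ?_
    simp only [Matrix.transpose_apply, hN, Matrix.of_apply, if_true]
    split_ifs <;> ring
  have h0 : ∀ k, k ≠ j → N 0 k = 0 := fun k hk => by
    simp [hN, hM, hk, div_mul_cancel₀ _ hj]
  have hsub : N.submatrix Fin.succ j.succAbove = Matrix.of fun i => shade a j (x i) := by
    ext i k
    simp only [hN, hM, Matrix.submatrix_apply, Matrix.of_apply, Fin.cons_succ, shade_apply,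
      Fin.succAbove_ne, if_false]
    ring
  rw [hdet, Matrix.det_succ_row_zero,
    Finset.sum_eq_single j (fun k _ hk => by rw [h0 k hk]; ring) (by simp), hsub]
  have hNj : N 0 j = a j := by simp [hN, hM]
  rw [hNj]
  simp [abs_mul]

/-- The change of variables with the shadow as second component. -/
private def coords (a : Fin (d + 1) → ℝ) (j : Fin (d + 1)) (x : Fin (d + 1) → ℝ) :
    ℝ × (Fin d → ℝ) := (x j, shade a j x)

private lemma coords_measurePreserving (a : Fin (d + 1) → ℝ) (j : Fin (d + 1)) :
    MeasurePreserving (coords a j) volume (volume.prod volume) := by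
  have h1 : MeasurePreserving (MeasurableEquiv.piFinSuccAbove (fun _ => ℝ) j) volume
      (volume.prod volume) := volume_preserving_piFinSuccAbove (fun _ => ℝ) j
  have h2 : MeasurePreserving (fun z : ℝ × (Fin d → ℝ) =>
      (z.1, z.2 + fun i => -(z.1 / a j * a (j.succAbove i))))
      (volume.prod volume) (volume.prod volume) := by
    refine MeasurePreserving.skew_product (f := id)
      (g := fun u (y : Fin d → ℝ) => y + fun i => -(u / a j * a (j.succAbove i)))
      (MeasurePreserving.id _) (by fun_prop) (ae_of_all _ fun u => ?_)
    exact (measurePreserving_add_right volume (fun i => -(u / a j * a (j.succAbove i)))).map_eq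
  have h3 : coords a j = (fun z : ℝ × (Fin d → ℝ) =>
      (z.1, z.2 + fun i => -(z.1 / a j * a (j.succAbove i)))) ∘
      MeasurableEquiv.piFinSuccAbove (fun _ => ℝ) j := by
    funext x
    refine Prod.ext ?_ (funext fun i => ?_)
    · simp [coords, MeasurableEquiv.piFinSuccAbove_apply, Fin.insertNthEquiv]
    · simp [coords, shade_apply, MeasurableEquiv.piFinSuccAbove_apply, Fin.insertNthEquiv,
        Fin.removeNth, sub_eq_add_neg]
  rw [h3]
  exact h2.comp h1

private lemma continuous_coords (a : Fin (d + 1) → ℝ) (j : Fin (d + 1)) :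
    Continuous (coords a j) :=
  (continuous_apply j).prodMk (shade a j).continuous_of_finiteDimensional

private lemma coords_injective (a : Fin (d + 1) → ℝ) (j : Fin (d + 1)) :
    Function.Injective (coords a j) := by
  intro x y h
  obtain ⟨h1, h2⟩ := Prod.ext_iff.1 h
  simp only [coords] at h1 h2
  funext k
  rcases Fin.eq_self_or_eq_succAbove j k with rfl | ⟨i, rfl⟩
  · exact h1
  · have := congrFun h2 i
    simp only [shade_apply, h1] at this
    linarith

private lemma volume_coords (a : Fin (d + 1) → ℝ) (j : Fin (d + 1))
    {S : Set (Fin (d + 1) → ℝ)} (hS : IsCompact S) :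
    volume S = ∫⁻ y, volume ((fun u : ℝ => (u, y)) ⁻¹' (coords a j '' S)) := by
  have hm : MeasurableSet (coords a j '' S) :=
    (hS.image (continuous_coords a j)).measurableSet
  calc volume S = volume (coords a j ⁻¹' (coords a j '' S)) := by
        rw [(coords_injective a j).preimage_image]
    _ = (volume.prod volume) (coords a j '' S) :=
        (coords_measurePreserving a j).measure_preimage hm.nullMeasurableSet
    _ = _ := Measure.prod_apply_symm hm

/-- Every nonzero vector has a shadow map. -/
theorem chartExists : ChartExists := by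
  intro d a ha
  obtain ⟨j, hj⟩ := Function.ne_iff.1 ha
  have hj : a j ≠ 0 := hj
  have hpa : shade a j a = 0 := by
    funext i
    simp [shade_apply, hj]
  refine ⟨shade a j, |a j|, abs_pos.2 hj, hpa, ?_, ?_, shade_det a hj⟩
  · intro y
    refine ⟨j.insertNth 0 y, funext fun i => ?_⟩
    simp [shade_apply]
  intro K hK hKc s hs
  set c : ℝ := s * |a j| with hc
  have hc0 : 0 ≤ c := by positivity
  have hG : IsCompact (grow a s K) :=
    (hK.prod isCompact_Icc).image (by fun_prop)
  have hP : IsCompact (shade a j '' K) :=
    hK.image (shade a j).continuous_of_finiteDimensional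
  have hshade : ∀ (z : Fin (d + 1) → ℝ) (v : ℝ), coords a j (z + v • a) =
      (z j + v * a j, shade a j z) := fun z v => by
    simp [coords, map_add, map_smul, hpa]
  have hfib : ∀ y, volume ((fun u : ℝ => (u, y)) ⁻¹' (coords a j '' grow a s K)) =
      volume ((fun u : ℝ => (u, y)) ⁻¹' (coords a j '' K)) +
        (shade a j '' K).indicator (fun _ => ENNReal.ofReal (2 * c)) y := by
    intro y
    set A : Set ℝ := (fun u : ℝ => (u, y)) ⁻¹' (coords a j '' K) with hA
    have hT : (fun u : ℝ => (u, y)) ⁻¹' (coords a j '' grow a s K) =
        {u | ∃ r ∈ A, ∃ v ∈ Icc (-s) s, u = r + v * a j} := by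
      ext u
      simp only [mem_preimage, mem_image, grow, mem_prod, hA]
      constructor
      · rintro ⟨_, ⟨⟨z, v⟩, ⟨hz, hv⟩, rfl⟩, he⟩
        rw [hshade, Prod.mk.injEq] at he
        exact ⟨z j, ⟨z, hz, Prod.ext rfl he.2⟩, v, hv, he.1.symm⟩
      · rintro ⟨r, ⟨z, hz, he⟩, v, hv, rfl⟩
        refine ⟨z + v • a, ⟨(z, v), ⟨hz, hv⟩, rfl⟩, ?_⟩
        simp only [coords, Prod.mk.injEq] at he
        rw [hshade, he.1, he.2]
    by_cases hy : y ∈ shade a j '' K
    · have hAne : A.Nonempty := by
        obtain ⟨z, hz, rfl⟩ := hy
        exact ⟨z j, z, hz, rfl⟩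
      have hAc : IsCompact A := by
        refine ((hK.image (continuous_coords a j)).image continuous_fst).of_isClosed_subset
          ((hK.image (continuous_coords a j)).isClosed.preimage (by fun_prop)) fun u hu => ?_
        exact ⟨(u, y), hu, rfl⟩
      have hAv : Convex ℝ A := by
        rintro u ⟨z, hz, he⟩ u' ⟨z', hz', he'⟩ p q hp hq hpq
        refine ⟨p • z + q • z', hKc hz hz' hp hq hpq, ?_⟩
        simp only [coords, Prod.mk.injEq] at he he'
        simp only [coords, map_add, map_smul, he.2, he'.2, Pi.add_apply, Pi.smul_apply, he.1,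
          he'.1, ← add_smul, hpq, one_smul]
      set l := sInf A
      set h := sSup A
      have hAI : A = Icc l h := eq_Icc_of_connected_compact ⟨hAne, hAv.isPreconnected⟩ hAc
      have hlh : l ≤ h := by
        rw [hAI] at hAne
        exact nonempty_Icc.1 hAne
      have hTI : {u | ∃ r ∈ A, ∃ v ∈ Icc (-s) s, u = r + v * a j} = Icc (l - c) (h + c) := by
        rw [hAI]
        ext u
        simp only [mem_ofPred_eq, mem_Icc]
        constructor
        · rintro ⟨r, hr, v, hv, rfl⟩
          have : |v * a j| ≤ c := by
            rw [abs_mul]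
            exact mul_le_mul_of_nonneg_right (abs_le.2 hv) (abs_nonneg _)
          constructor <;> linarith [abs_le.1 this]
        · intro hu
          set r := max l (min u h)
          have hr : l ≤ r ∧ r ≤ h := ⟨le_max_left _ _, max_le hlh (min_le_right _ _)⟩
          refine ⟨r, hr, (u - r) / a j, ?_, by field_simp; ring⟩
          have hur : |u - r| ≤ c := by
            rcases le_total u l with h1 | h1
            · rw [show r = l from max_eq_left ((min_le_left _ _).trans h1), abs_le]
              constructor <;> linarith
            · rcases le_total u h with h2 | h2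
              · rw [show r = u by simp [r, h1, h2]]; simpa using hc0
              · rw [show r = h by simp [r, h2, hlh], abs_le]
                constructor <;> linarith
          rw [← abs_le, abs_div, div_le_iff₀ (abs_pos.2 hj)]
          exact hur
      rw [indicator_of_mem hy, hT, hTI, hAI, Real.volume_Icc, Real.volume_Icc,
        ← ENNReal.ofReal_add (by linarith) (by positivity)]
      congr 1; ring
    · have hAe : A = ∅ := by
        refine eq_empty_of_forall_notMem fun u ⟨z, hz, he⟩ => hy ⟨z, hz, ?_⟩
        exact (Prod.ext_iff.1 he).2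
      rw [indicator_of_notMem hy, hT, hAe]
      simp
  have hvol : volume (grow a s K) =
      volume K + ENNReal.ofReal (2 * c) * volume (shade a j '' K) := by
    rw [volume_coords a j hG, lintegral_congr hfib,
      lintegral_add_right _ (measurable_const.indicator hP.measurableSet),
      lintegral_indicator_const hP.measurableSet, ← volume_coords a j hK]
  rw [vol, vol, vol, hvol, ENNReal.toReal_add hK.measure_lt_top.ne
    (ENNReal.mul_ne_top ENNReal.ofReal_ne_top hP.measure_lt_top.ne), ENNReal.toReal_mul,
    ENNReal.toReal_ofReal (by positivity)]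
  ring

end Vale.Agent.P227.Zono
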