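import Vale.Agent.P227.Zono.Main
import Vale.Agent.P254.SquareBM

/-!
P227: Minkowski's first inequality for a body and a zonotope, by adding one segment at a time to
the body and comparing with the Brunn-Minkowski inequality as the lengths tend to zero.
-/

noncomputable section

namespace Vale.Agent.P227.Zono

open MeasureTheory Set Matrix Filter
open scoped Pointwise Topology

variable {d m : ℕ}

private lemma smul_zonot {k : ℕ} (a : Fin m → Fin k → ℝ) (t : Fin m → ℝ) {s : ℝ} (hs : 0 < s) :
    s • zonot a t = zonot a fun i => s * t i := by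
  ext x
  rw [mem_smul_set_iff_inv_smul_mem₀ hs.ne']
  constructor
  · rintro ⟨l, hl, hlx⟩
    refine ⟨fun i => s * l i, fun i _ => ?_, ?_⟩
    · have h := hl i (mem_univ _)
      exact ⟨by nlinarith [h.1], by nlinarith [h.2]⟩
    · have h := congrArg (s • ·) hlx
      simpa [Finset.smul_sum, smul_smul, hs.ne'] using h
  · rintro ⟨l, hl, rfl⟩
    refine ⟨fun i => s⁻¹ * l i, fun i _ => ?_, by simp [Finset.smul_sum, smul_smul]⟩
    have h : -(s * t i) ≤ l i ∧ l i ≤ s * t i := hl i (mem_univ _)
    constructor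
    · rw [le_inv_mul_iff₀ hs]; linarith [h.1]
    · rw [inv_mul_le_iff₀ hs]; exact h.2

private lemma vol_smul {k : ℕ} (K : Set (Fin k → ℝ)) {c : ℝ} (hc : 0 ≤ c) :
    vol (c • K) = c ^ k * vol K := by
  rw [vol, vol, Measure.addHaar_smul_of_nonneg volume hc, ENNReal.toReal_mul,
    ENNReal.toReal_ofReal (by positivity)]
  simp

private lemma vol_mono {k : ℕ} {K K' : Set (Fin k → ℝ)} (h : K ⊆ K') (hK : IsCompact K') :
    vol K ≤ vol K' :=
  ENNReal.toReal_mono hK.measure_lt_top.ne (measure_mono h)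

private lemma zero_mem_zonot {k : ℕ} (a : Fin m → Fin k → ℝ) {t : Fin m → ℝ}
    (ht : ∀ i, 0 ≤ t i) : (0 : Fin k → ℝ) ∈ zonot a t :=
  ⟨0, fun i _ => by simp [ht i], by simp⟩

private lemma chart_nonneg {a : Fin m → Fin (d + 1) → ℝ}
    {p : Fin m → (Fin (d + 1) → ℝ) →ₗ[ℝ] Fin d → ℝ} {α : Fin m → ℝ} (hc : Charts a p α)
    (i : Fin m) : 0 ≤ α i := by
  rcases hc i with ⟨-, h⟩ | h
  · exact h.ge
  · exact h.1.le

/-- Each segment adds at most its length times a shadow of the final body. -/
private lemma vol_add_zonot : ∀ (m : ℕ) (a : Fin m → Fin (d + 1) → ℝ)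
    (p : Fin m → (Fin (d + 1) → ℝ) →ₗ[ℝ] Fin d → ℝ) (α : Fin m → ℝ), Charts a p α →
    ∀ (K : Set (Fin (d + 1) → ℝ)) (t : Fin m → ℝ), IsCompact K → Convex ℝ K → (∀ i, 0 ≤ t i) →
      vol (K + zonot a t) ≤ vol K + ∑ i, t i * (2 * α i * vol (p i '' (K + zonot a t))) := by
  intro m
  induction m with
  | zero =>
    intro a p α _ K t _ _ _
    have h : zonot a t = {0} := by
      refine subset_antisymm ?_ (singleton_subset_iff.2 (zero_mem_zonot a fun i => i.elim0))
      rintro _ ⟨l, -, rfl⟩
      simp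
    simp [h]
  | succ m ih =>
    intro a p α hc K t hK hKc ht
    set a' : Fin m → Fin (d + 1) → ℝ := fun i => a i.succ
    set t' : Fin m → ℝ := fun i => t i.succ
    set K' := K + zonot a' t'
    have hK' : IsCompact K' := hK.add (isCompact_zonot a' t')
    have hsub : K' ⊆ K + zonot a t := by
      refine Set.add_subset_add_left ?_
      rintro _ ⟨l, hl, rfl⟩
      refine ⟨Fin.cons 0 l, fun i _ => ?_, by simp [a', Fin.sum_univ_succ]⟩
      refine Fin.cases ?_ (fun j => ?_) i
      · simpa using ht 0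
      · simpa [t'] using hl j (mem_univ _)
    have hgrow : K + zonot a t = grow (a 0) (t 0) K' := by
      apply subset_antisymm
      · rintro _ ⟨k, hk, _, ⟨l, hl, rfl⟩, rfl⟩
        refine ⟨(k + ∑ i, l (Fin.succ i) • a' i, l 0),
          ⟨Set.add_mem_add hk ⟨fun i => l i.succ, fun i _ => hl i.succ (mem_univ _), rfl⟩,
            hl 0 (mem_univ _)⟩, ?_⟩
        simp [a', Fin.sum_univ_succ, add_comm, add_left_comm]
      · rintro _ ⟨⟨_, s⟩, ⟨⟨k, hk, _, ⟨l, hl, rfl⟩, rfl⟩, hs⟩, rfl⟩
        refine ⟨k, hk, _, ⟨Fin.cons s l, fun i _ => ?_, rfl⟩, ?_⟩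
        · refine Fin.cases ?_ (fun j => ?_) i
          · simpa using hs
          · simpa [t'] using hl j (mem_univ _)
        · simp [a', Fin.sum_univ_succ, add_comm, add_left_comm]
    have hmono : ∀ i, vol (p i '' K') ≤ vol (p i '' (K + zonot a t)) := fun i =>
      vol_mono (image_mono hsub)
        ((hK.add (isCompact_zonot a t)).image (p i).continuous_of_finiteDimensional)
    have h0 : vol (K + zonot a t)
        ≤ vol K' + t 0 * (2 * α 0 * vol (p 0 '' (K + zonot a t))) := by
      rcases hc 0 with ⟨ha, hα⟩ | h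
      · have hg : grow (a 0) (t 0) K' ⊆ K' := by
          rintro _ ⟨⟨z, s⟩, ⟨hz, -⟩, rfl⟩
          simpa [ha] using hz
        rw [hα, hgrow]
        simpa using vol_mono hg hK'
      · have h1 := h.2.2.2.1 K' hK' (hKc.add (convex_zonot a' t')) (t 0) (ht 0)
        rw [← hgrow] at h1
        have h2 := mul_le_mul_of_nonneg_left (hmono 0)
          (mul_nonneg (mul_nonneg two_pos.le (ht 0)) h.1.le)
        linarith
    have h1 := ih a' (fun i => p i.succ) (fun i => α i.succ) (fun i => hc i.succ) K t' hK hKc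
      fun i => ht i.succ
    have h2 : ∑ i, t' i * (2 * α i.succ * vol (p i.succ '' K'))
        ≤ ∑ i : Fin m, t i.succ * (2 * α i.succ * vol (p i.succ '' (K + zonot a t))) :=
      Finset.sum_le_sum fun i _ => mul_le_mul_of_nonneg_left
        (mul_le_mul_of_nonneg_left (hmono _) (mul_nonneg two_pos.le (chart_nonneg hc _))) (ht _)
    rw [Fin.sum_univ_succ]
    linarith

private lemma pow_succ_add_le {a x : ℝ} (ha : 0 ≤ a) (hx : 0 ≤ x) :
    ∀ k : ℕ, a ^ (k + 1) + (k + 1) * a ^ k * x ≤ (a + x) ^ (k + 1) := by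
  intro k
  induction k with
  | zero => simp
  | succ k ih =>
    have h := mul_le_mul_of_nonneg_right ih (add_nonneg ha hx)
    rw [pow_succ (a + x)]
    push_cast
    have : 0 ≤ ((k : ℝ) + 1) * a ^ k * (x * x) := by positivity
    linear_combination h + this

/-- Minkowski's first inequality of the pins. -/
theorem minkowskiZono : MinkowskiZono := by
  intro d m a p α hc L t hL ht
  set Z := zonot a t with hZdef
  set S := ∑ i, t i * (2 * α i * vol (p i '' L)) with hS
  have hS0 : 0 ≤ S := Finset.sum_nonneg fun i _ =>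
    mul_nonneg (ht i).le (mul_nonneg (mul_nonneg two_pos.le (chart_nonneg hc i)) ENNReal.toReal_nonneg)
  rcases (show 0 ≤ vol Z from ENNReal.toReal_nonneg).eq_or_lt with hB | hB
  · rw [← hB, zero_mul]
    positivity
  have hn : d + 1 ≠ 0 := by omega
  set r := vol L ^ (((d + 1 : ℕ) : ℝ)⁻¹) with hr
  set b := vol Z ^ (((d + 1 : ℕ) : ℝ)⁻¹) with hb
  have hra : r ^ (d + 1) = vol L := Real.rpow_inv_natCast_pow hL.2.2.2.le hn
  have hbb : b ^ (d + 1) = vol Z := Real.rpow_inv_natCast_pow hB.le hn
  have hr0 : 0 < r := Real.rpow_pos_of_pos hL.2.2.2 _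
  have hb0 : 0 < b := Real.rpow_pos_of_pos hB _
  obtain ⟨x, hx⟩ := interior_nonempty hL.1 hL.2.1 hL.2.2.2
  have hL0 : (0 : Fin (d + 1) → ℝ) ∈ interior L := by
    have := hL.2.1.combo_interior_self_mem_interior hx (hL.2.2.1 x (interior_subset hx))
      (show (0 : ℝ) < 1 / 2 by norm_num) (show (0 : ℝ) ≤ 1 / 2 by norm_num) (by norm_num)
    simpa using this
  obtain ⟨ρ, hρ, hρL⟩ := Metric.mem_nhds_iff.1 (mem_interior_iff_mem_nhds.1 hL0)
  obtain ⟨R, hR, hZR⟩ := (isCompact_zonot a t).isBounded.subset_ball_lt 0 0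
  set C := R / ρ with hC
  have hC0 : 0 < C := div_pos hR hρ
  have hZL : Z ⊆ C • L := by
    intro z hz
    rw [mem_smul_set_iff_inv_smul_mem₀ hC0.ne']
    refine hρL ?_
    have h1 : ‖z‖ < R := by simpa using hZR hz
    rw [mem_ball_zero_iff, norm_smul, norm_inv, Real.norm_of_nonneg hC0.le, hC, inv_div,
      div_mul_eq_mul_div, div_lt_iff₀ hR]
    exact mul_lt_mul_of_pos_left h1 hρ
  have key : ∀ s : ℝ, 0 < s → ((d : ℝ) + 1) * r ^ d * b ≤ S * (1 + s * C) ^ d := by
    intro s hs
    set G := L + zonot a fun i => s * t i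
    have hGc : IsCompact G := hL.1.add (isCompact_zonot _ _)
    have hGL : G ⊆ (1 + s * C) • L := by
      rw [hL.2.1.add_smul zero_le_one (by positivity), one_smul, ← smul_smul]
      refine Set.add_subset_add_left ?_
      rw [← smul_zonot a t hs]
      exact smul_set_mono hZL
    have hup : vol G ≤ r ^ (d + 1) + s * (1 + s * C) ^ d * S := by
      refine (vol_add_zonot m a p α hc L _ hL.1 hL.2.1 fun i => mul_nonneg hs.le (ht i).le).trans ?_
      rw [hra, hS, Finset.mul_sum]
      refine add_le_add le_rfl (Finset.sum_le_sum fun i _ => ?_)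
      have hv : vol (p i '' G) ≤ (1 + s * C) ^ d * vol (p i '' L) := by
        rw [← vol_smul _ (by positivity), ← image_smul_set]
        exact vol_mono (image_mono hGL)
          ((hL.1.smul _).image (p i).continuous_of_finiteDimensional)
      have h := mul_le_mul_of_nonneg_left hv
        (mul_nonneg (mul_nonneg hs.le (ht i).le) (mul_nonneg two_pos.le (chart_nonneg hc i)))
      linarith
    have hlow : (r + s * b) ^ (d + 1) ≤ vol G := by
      have h := Vale.Agent.P254.brunn_minkowski (A := (2 : ℝ) • L) (B := (2 * s) • Z) (C := G)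
        (hL.1.smul _) ((isCompact_zonot a t).smul _) hGc (hL.2.1.smul _)
        ((convex_zonot a t).smul _) ⟨0, interior_subset hL0, smul_zero _⟩
        ⟨0, zero_mem_zonot a fun i => (ht i).le, smul_zero _⟩ (a := 2 * r) (b := 2 * s * b)
        (by positivity) (by positivity) (l := 1 / 2) (μ := 1 / 2)
        (by rw [mul_pow _ r, hra]; exact vol_smul L two_pos.le)
        (by rw [mul_pow _ b, hbb]; exact vol_smul Z (by positivity))
        (by norm_num) (by norm_num) (by norm_num) ?_
      · refine le_of_eq_of_le ?_ h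
        ring
      · rintro _ ⟨u, hu, rfl⟩ _ ⟨v, hv, rfl⟩
        refine ⟨u, hu, s • v, ?_, ?_⟩
        · rw [← smul_zonot a t hs]
          exact smul_mem_smul_set hv
        · simp [smul_smul]
    have h3 := (pow_succ_add_le hr0.le (by positivity : 0 ≤ s * b) d).trans (hlow.trans hup)
    refine le_of_mul_le_mul_left ?_ hs
    linarith
  have hlim : Tendsto (fun s : ℝ => S * (1 + s * C) ^ d) (𝓝[>] 0) (𝓝 S) := by
    have h : ContinuousAt (fun s : ℝ => S * (1 + s * C) ^ d) 0 := by fun_prop
    simpa using h.tendsto.mono_left nhdsWithin_le_nhds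
  have hfin := ge_of_tendsto hlim (eventually_nhdsWithin_of_forall key)
  rw [← hra, ← hbb, ← pow_mul, Nat.mul_comm, pow_mul, ← mul_pow]
  refine pow_le_pow_left₀ (by positivity) ?_ _
  rw [le_div_iff₀ (by positivity)]
  linarith

end Vale.Agent.P227.Zono
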