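import Vale.Agent.P227.Zono.Pins

/-!
P227: the volume of a zonotope is a multiaffine polynomial in the lengths of its segments, by
adding one segment at a time.
-/

noncomputable section

namespace Vale.Agent.P227.Zono

open MeasureTheory Set Matrix

theorem zonot_image {d k m : ℕ} (p : (Fin d → ℝ) →ₗ[ℝ] Fin k → ℝ) (a : Fin m → Fin d → ℝ)
    (t : Fin m → ℝ) : p '' zonot a t = zonot (fun i => p (a i)) t := by
  simp only [zonot, Set.image_image, map_sum, map_smul]

theorem zonot_isCompact {d m : ℕ} (a : Fin m → Fin d → ℝ) (t : Fin m → ℝ) :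
    IsCompact (zonot a t) :=
  (isCompact_univ_pi fun _ => isCompact_Icc).image
    (continuous_finsetSum _ fun i _ => (continuous_apply i).smul continuous_const)

theorem zonot_convex {d m : ℕ} (a : Fin m → Fin d → ℝ) (t : Fin m → ℝ) :
    Convex ℝ (zonot a t) := by
  refine (convex_pi fun i _ => convex_Icc (-t i) (t i)).is_linear_image ⟨?_, ?_⟩
  · intro x y
    simp [add_smul, Finset.sum_add_distrib]
  · intro c x
    simp [Finset.smul_sum, smul_smul]

/-- Split off the first segment. -/
theorem zonot_succ {d m : ℕ} (a : Fin (m + 1) → Fin d → ℝ) (t : Fin (m + 1) → ℝ) :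
    zonot a t = grow (a 0) (t 0) (zonot (fun i => a i.succ) fun i => t i.succ) := by
  apply Set.Subset.antisymm
  · rintro _ ⟨l, hl, rfl⟩
    refine ⟨(∑ i, l (Fin.succ i) • a i.succ, l 0),
      ⟨⟨fun i => l i.succ, fun i _ => hl i.succ (mem_univ _), rfl⟩, hl 0 (mem_univ _)⟩, ?_⟩
    simp [Fin.sum_univ_succ, add_comm]
  · rintro _ ⟨⟨_, s⟩, ⟨⟨l, hl, rfl⟩, hs⟩, rfl⟩
    refine ⟨Fin.cons s l, fun i _ => ?_, ?_⟩
    · refine Fin.cases ?_ (fun j => ?_) i
      · simpa using hs
      · simpa using hl j (mem_univ _)
    · simp [Fin.sum_univ_succ, add_comm]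

theorem vol_zonot_zero {m : ℕ} (a : Fin m → Fin 0 → ℝ) (t : Fin m → ℝ) (ht : ∀ i, 0 ≤ t i) :
    vol (zonot a t) = 1 := by
  have h : zonot a t = univ :=
    eq_univ_of_forall fun x => ⟨0, fun i _ => by simpa using ht i, Subsingleton.elim _ _⟩
  rw [h, vol, volume_pi, Measure.pi_of_empty, measure_univ, ENNReal.toReal_one]

/-- A subset of a successor index set is a flag and a subset of the smaller one. -/
def splitZero (m : ℕ) : Finset (Fin (m + 1)) ≃ Bool × Finset (Fin m) where
  toFun S := (decide (0 ∈ S), Finset.univ.filter fun j => j.succ ∈ S)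
  invFun x := if x.1 then insert 0 (x.2.map (Fin.succEmb m)) else x.2.map (Fin.succEmb m)
  left_inv S := by
    ext i
    refine Fin.cases ?_ (fun j => ?_) i <;> by_cases h : 0 ∈ S <;> simp [h, Fin.succ_ne_zero]
  right_inv x := by
    obtain ⟨b, T⟩ := x
    cases b <;> simp [Fin.succ_ne_zero]

/-- The pins' polynomial formula for the volume, given the shadow maps. -/
theorem posynomial (hC : ChartExists) : Posynomial := by
  intro d m
  induction m generalizing d with
  | zero =>
    intro a
    obtain rfl | hd := Nat.eq_zero_or_pos d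
    · exact ⟨fun _ => 1, fun _ => zero_le_one, fun S _ => by simp [Subsingleton.elim S ∅],
        fun t ht => by simp [vol_zonot_zero a t ht, Subsingleton.elim _ (∅ : Finset (Fin 0))]⟩
    · refine ⟨fun _ => 0, fun _ => le_rfl, fun S h => absurd rfl h, fun t _ => ?_⟩
      have : Nonempty (Fin d) := ⟨⟨0, hd⟩⟩
      have h : zonot a t ⊆ {0} := by
        rintro _ ⟨l, -, rfl⟩
        simp
      simp [vol, measure_mono_null h (measure_singleton _)]
  | succ m ih =>
    intro a
    obtain _ | k := d
    · refine ⟨fun S => if S = ∅ then 1 else 0, fun S => ?_, fun S h => ?_, fun t ht => ?_⟩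
      · dsimp only
        split <;> norm_num
      · simp_all
      · simp [vol_zonot_zero a t ht]
    obtain ⟨B, hB0, hBc, hB⟩ := ih (k + 1) fun i => a i.succ
    obtain ⟨D, hD0, hDc, hD⟩ : ∃ D : Finset (Fin m) → ℝ, (∀ T, 0 ≤ D T) ∧
        (∀ T, D T ≠ 0 → T.card = k) ∧ ∀ t : Fin (m + 1) → ℝ, (∀ i, 0 ≤ t i) →
          vol (zonot a t) = (∑ T, B T * ∏ i ∈ T, t i.succ) +
            t 0 * ∑ T, D T * ∏ i ∈ T, t i.succ := by
      by_cases h0 : a 0 = 0
      · refine ⟨fun _ => 0, fun _ => le_rfl, fun T h => absurd rfl h, fun t ht => ?_⟩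
        rw [← hB (fun i => t i.succ) fun i => ht i.succ]
        have hg : grow (a 0) (t 0) (zonot (fun i => a i.succ) fun i => t i.succ)
            = zonot (fun i => a i.succ) fun i => t i.succ := by
          apply Set.Subset.antisymm
          · rintro _ ⟨⟨z, s⟩, ⟨hz, -⟩, rfl⟩
            simpa [h0] using hz
          · exact fun z hz =>
              ⟨(z, 0), ⟨hz, by simp [ht 0]⟩, by simp⟩
        rw [zonot_succ, hg]
        simp
      · obtain ⟨p, α, hα, -, -, hgrow, -⟩ := hC k (a 0) h0
        obtain ⟨E, hE0, hEc, hE⟩ := ih k fun i => p (a i.succ)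
        refine ⟨fun T => 2 * α * E T, fun T => mul_nonneg (by linarith) (hE0 T),
          fun T h => hEc T (right_ne_zero_of_mul h), fun t ht => ?_⟩
        rw [zonot_succ, hgrow _ (zonot_isCompact _ _) (zonot_convex _ _) _ (ht 0), zonot_image,
          hE (fun i => t i.succ) fun i => ht i.succ, hB (fun i => t i.succ) fun i => ht i.succ,
          Finset.mul_sum, Finset.mul_sum]
        congr 1
        exact Finset.sum_congr rfl fun T _ => by ring
    refine ⟨fun S => if (splitZero m S).1 then D (splitZero m S).2 else B (splitZero m S).2,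
      fun S => ?_, fun S hS => ?_, fun t ht => ?_⟩
    · dsimp only
      split
      · exact hD0 _
      · exact hB0 _
    · obtain ⟨⟨b, T⟩, rfl⟩ := (splitZero m).symm.surjective S
      simp only [Equiv.apply_symm_apply] at hS
      cases b
      · simpa [splitZero] using hBc T (by simpa using hS)
      · simpa [splitZero, Fin.succ_ne_zero] using hDc T (by simpa using hS)
    · rw [hD t ht, ← (splitZero m).symm.sum_comp, Fintype.sum_prod_type, Fintype.sum_bool,
        add_comm (Finset.sum _ _), Finset.mul_sum]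
      simp only [Equiv.apply_symm_apply]
      congr 1 <;> refine Finset.sum_congr rfl fun T _ => ?_ <;>
        simp [splitZero, Finset.prod_map, mul_left_comm]

end Vale.Agent.P227.Zono
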