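import Vale.Agent.P227.Zono.Pins

/-!
P227: the cone decomposition of a zonotope and the gradient inequality for `log |Z(exp s)|`,
from the polynomiality of the volume.
-/

noncomputable section

namespace Vale.Agent.P227.Zono

open MeasureTheory Set Matrix

namespace Power

variable {d m : ℕ}

theorem isCompact_zonot (a : Fin m → Fin d → ℝ) (t : Fin m → ℝ) : IsCompact (zonot a t) :=
  (isCompact_univ_pi fun i => isCompact_Icc).image (by fun_prop)

theorem convex_zonot (a : Fin m → Fin d → ℝ) (t : Fin m → ℝ) : Convex ℝ (zonot a t) := by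
  refine (convex_pi fun i _ => convex_Icc _ _).is_linear_image ⟨fun x y => ?_, fun c x => ?_⟩
  · simp [add_smul, Finset.sum_add_distrib]
  · simp [Finset.smul_sum, mul_smul]

theorem zonot_grow (a : Fin m → Fin d → ℝ) (i : Fin m) :
    zonot a (Function.update 1 i 2) = grow (a i) 1 (zonot a 1) := by
  classical
  have hsum : ∀ (l : Fin m → ℝ) (c : ℝ),
      ∑ j, Function.update l i (l i + c) j • a j = (∑ j, l j • a j) + c • a i := by
    intro l c
    have : ∀ j, Function.update l i (l i + c) j • a j =
        l j • a j + (if j = i then c • a i else 0) := by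
      intro j
      rcases eq_or_ne j i with rfl | hj
      · simp [add_smul]
      · simp [hj]
    simp [this, Finset.sum_add_distrib]
  ext x
  constructor
  · rintro ⟨l, hl, rfl⟩
    have hli : -2 ≤ l i ∧ l i ≤ 2 := by simpa using hl i trivial
    refine ⟨(∑ j, Function.update l i (l i / 2) j • a j, l i / 2),
      ⟨⟨_, fun j _ => ?_, rfl⟩, ⟨by linarith [hli.1], by linarith [hli.2]⟩⟩, ?_⟩
    · rcases eq_or_ne j i with rfl | hj
      · simp only [Function.update_self, Pi.one_apply, mem_Icc]
        exact ⟨by linarith [hli.1], by linarith [hli.2]⟩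
      · simpa [hj] using hl j trivial
    · show _ + (l i / 2) • a i = _
      rw [← hsum (Function.update l i (l i / 2)) (l i / 2)]
      congr! 2 with j
      rcases eq_or_ne j i with rfl | hj
      · simp
      · simp [hj]
  · rintro ⟨⟨z, c⟩, ⟨⟨l, hl, rfl⟩, hc⟩, rfl⟩
    refine ⟨Function.update l i (l i + c), fun j _ => ?_, hsum l c⟩
    have hj' := hl j trivial
    simp only [Pi.one_apply, mem_Icc] at hj' hc
    rcases eq_or_ne j i with rfl | hj
    · simp only [Function.update_self, mem_Icc]
      exact ⟨by linarith, by linarith⟩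
    · simpa [hj] using hj'

theorem zonot_update_of_eq_zero (a : Fin m → Fin d → ℝ) (i : Fin m) (h : a i = 0) :
    zonot a (Function.update 1 i 2) = zonot a 1 := by
  rw [zonot_grow a i]
  ext x
  constructor
  · rintro ⟨⟨z, c⟩, ⟨hz, -⟩, rfl⟩; simpa [h] using hz
  · exact fun hx => ⟨(x, 0), ⟨hx, by simp⟩, by simp⟩

end Power

open Power in
theorem powerBound (hP : Posynomial) : PowerBound := by
  classical
  intro d m a p α hch
  obtain ⟨C, hC0, hCd, hC⟩ := hP (d + 1) m a
  set V := vol (zonot a 1) with hV
  have hV1 : V = ∑ S, C S := by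
    rw [hV, hC 1 fun i => by simp]
    simp
  have hg : ∀ i, 2 * α i * vol (p i '' zonot a 1) = ∑ S, C S * (if i ∈ S then 1 else 0) := by
    intro i
    have h2 : ∀ S : Finset (Fin m), ∏ j ∈ S, Function.update (1 : Fin m → ℝ) i 2 j
        = 1 + (if i ∈ S then (1 : ℝ) else 0) := by
      intro S
      by_cases hi : i ∈ S
      · rw [Finset.prod_update_of_mem hi]
        simp [hi]
        norm_num
      · rw [Finset.prod_update_of_notMem hi]
        simp [hi]
    have h3 : vol (zonot a (Function.update 1 i 2)) = V + ∑ S, C S * (if i ∈ S then 1 else 0) := by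
      rw [hC _ fun j => by
        rcases eq_or_ne j i with rfl | hj
        · simp
        · simp [hj], hV1, ← Finset.sum_add_distrib]
      simp [h2, mul_add]
    rcases hch i with ⟨ha, hα⟩ | h
    · rw [zonot_update_of_eq_zero a i ha, ← hV] at h3
      rw [hα]; linarith
    · rw [zonot_grow a i,
        h.2.2.2.1 _ (isCompact_zonot a 1) (convex_zonot a 1) 1 zero_le_one, ← hV] at h3
      linarith
  constructor
  · rw [Finset.sum_congr rfl fun i _ => hg i, Finset.sum_comm, hV1, Finset.mul_sum]
    refine Finset.sum_congr rfl fun S _ => ?_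
    by_cases hS : C S = 0
    · simp [hS]
    · rw [← Finset.mul_sum, Finset.sum_boole, Finset.filter_mem_eq_inter, Finset.univ_inter,
        hCd S hS]
      push_cast; ring
  · intro hVpos t ht
    rw [hC t fun i => (ht i).le]
    have key : ∑ i, 2 * α i * vol (p i '' zonot a 1) * Real.log (t i)
        = ∑ S, C S * ∑ i ∈ S, Real.log (t i) := by
      simp only [hg, Finset.sum_mul, Finset.mul_sum]
      rw [Finset.sum_comm]
      refine Finset.sum_congr rfl fun S _ => ?_
      simp [mul_ite, ite_mul, Finset.sum_ite_mem]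
    have hJ := convexOn_exp.map_sum_le (t := (Finset.univ : Finset (Finset (Fin m))))
      (w := fun S => C S / V) (p := fun S => ∑ i ∈ S, Real.log (t i))
      (fun S _ => div_nonneg (hC0 S) hVpos.le)
      (by rw [← Finset.sum_div, ← hV1, div_self hVpos.ne'])
      (fun _ _ => mem_univ _)
    have hE : ∀ S : Finset (Fin m), Real.exp (∑ i ∈ S, Real.log (t i)) = ∏ i ∈ S, t i := fun S => by
      rw [Real.exp_sum]
      exact Finset.prod_congr rfl fun i _ => Real.exp_log (ht i)
    simp only [smul_eq_mul, div_mul_eq_mul_div, hE] at hJ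
    rw [← Finset.sum_div, ← Finset.sum_div, le_div_iff₀ hVpos, ← key] at hJ
    linarith

end Vale.Agent.P227.Zono
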