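import Vale.Agent.P227.Zono.Pins2

/-!
P227: the logarithmic Minkowski inequality of zonoids in terms of the cone volume, and the pair
inequality whenever the logarithmic combination is a zonoid.

The cone volume measure of `K` is the law of the gradient of the gauge at a uniform point of `K`,
so the inequality reads `|K| log (|L| / |K|) ≤ n ∫_K log h_L (∇‖x‖_K) dx`. This form passes to
Hausdorff limits by dominated convergence.
-/

noncomputable section

namespace Vale.Agent.P227.Zono

open MeasureTheory Set Matrix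

variable {d : ℕ}

/-- A zonoid: a body approximated by zonotopes from both sides up to every factor `1 + ε`. -/
def IsZonoid (K : Set (Fin d → ℝ)) : Prop :=
  ∀ ε : ℝ, 0 < ε → ∃ (m : ℕ) (a : Fin m → Fin d → ℝ),
    (∀ x ∈ zonot a 1, (1 + ε)⁻¹ • x ∈ K) ∧ ∀ x ∈ K, (1 + ε)⁻¹ • x ∈ zonot a 1

/-- The gradient of the gauge of `K`: at almost every `x` the outer normal `ν` of `K` over `x`,
scaled so that its support value is one. -/
def gaugeGrad (K : Set (Fin d → ℝ)) (x : Fin d → ℝ) : Fin d → ℝ :=
  fun i => fderiv ℝ (gauge K) x (Pi.single i 1)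

/-- The logarithmic Minkowski inequality at `K` against every body, with the cone volume. -/
def ConeLogMinkowski (K : Set (Fin d → ℝ)) : Prop :=
  ∀ L : Set (Fin d → ℝ), IsBody L →
    vol K * Real.log (vol L / vol K) ≤
      (d : ℝ) * ∫ x in K, Real.log (supp L (gaugeGrad K x))

/-- Every zonoid with interior satisfies it. -/
def ZonoidConeLogMinkowski : Prop :=
  ∀ (d : ℕ) (K : Set (Fin d → ℝ)), 0 < d → IsBody K → IsZonoid K → ConeLogMinkowski K

/-- The inequality of Q1 whenever the logarithmic combination is a zonoid. -/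
def PairZonoid : Prop :=
  ∀ (d : ℕ) (K L : Set (Fin d → ℝ)) (t : ℝ), 0 < d → IsBody K → IsBody L → 0 ≤ t → t ≤ 1 →
    IsZonoid (logComb K L t) → vol K ^ (1 - t) * vol L ^ t ≤ vol (logComb K L t)

/-- Block: facts on the gauge of a body at almost every point. -/
def GaugeFacts : Prop :=
  ∀ (d : ℕ) (K : Set (Fin d → ℝ)), 0 < d → IsBody K →
    (∀ᵐ x : Fin d → ℝ, x ≠ 0 ∧ DifferentiableAt ℝ (gauge K) x) ∧
    ∀ x : Fin d → ℝ, x ≠ 0 → DifferentiableAt ℝ (gauge K) x →
      ∑ i, gaugeGrad K x i * x i = gauge K x ∧ supp K (gaugeGrad K x) = 1 ∧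
        ∀ y : Fin d → ℝ, ∑ i, y i * x i = gauge K x → supp K y ≤ 1 → y = gaugeGrad K x

/-- Block: on a zonotope the law of the gradient of the gauge is given by the weights. -/
def ZonotopeCone : Prop :=
  ∀ (d m : ℕ) (a : Fin m → Fin (d + 1) → ℝ) (L : Set (Fin (d + 1) → ℝ)),
    0 < vol (zonot a 1) → IsBody L →
    vol (zonot a 1) * ∑ f : Fin d → Fin m, weight a f * Real.log (supDet a L f / weight a f) =
      (∑ f : Fin d → Fin m, weight a f) *
        ∫ x in zonot a 1, Real.log (supp L (gaugeGrad (zonot a 1) x))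

/-- Block: passage to the limit. -/
def ConeLimit : Prop :=
  GaugeFacts →
    (∀ (d m : ℕ) (a : Fin m → Fin (d + 1) → ℝ),
      0 < vol (zonot a 1) → ConeLogMinkowski (zonot a 1)) →
    ZonoidConeLogMinkowski

/-- Block: the pair inequality. -/
def ConePair : Prop := GaugeFacts → ZonoidConeLogMinkowski → PairZonoid

end Vale.Agent.P227.Zono
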