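import Vale.Agent.P227.Zono.Pins

/-!
P227: the pair inequality when the logarithmic combination is a zonotope.
-/

noncomputable section

namespace Vale.Agent.P227.Zono

open MeasureTheory Set Matrix

variable {d : ℕ}

/-- The support function. -/
def supp (K : Set (Fin d → ℝ)) (y : Fin d → ℝ) : ℝ := sSup ((fun x => ∑ i, y i * x i) '' K)

/-- The logarithmic combination `W[h_K^(1-t) h_L^t]`; the bound is homogeneous, so all `y` may be
used in place of unit ones. -/
def logComb (K L : Set (Fin d → ℝ)) (t : ℝ) : Set (Fin d → ℝ) :=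
  {x | ∀ y : Fin d → ℝ, ∑ i, y i * x i ≤ supp K y ^ (1 - t) * supp L y ^ t}

/-- At a facet normal of a zonotope equal to the Wulff body, the geometric mean of the supports is
attained. -/
def Touching : Prop :=
  ∀ (d m : ℕ) (a : Fin m → Fin (d + 1) → ℝ) (K L : Set (Fin (d + 1) → ℝ)) (t : ℝ),
    IsBody K → IsBody L → 0 ≤ t → t ≤ 1 → 0 < vol (zonot a 1) → logComb K L t = zonot a 1 →
    ∀ f : Fin d → Fin m, 0 < weight a f →
      0 < supDet a K f ∧ 0 < supDet a L f ∧
        supDet a K f ^ (1 - t) * supDet a L f ^ t = weight a f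

/-- The pair inequality whenever the logarithmic combination is a zonotope. -/
def PairZonotope : Prop :=
  ∀ (d m : ℕ) (a : Fin m → Fin (d + 1) → ℝ) (K L : Set (Fin (d + 1) → ℝ)) (t : ℝ),
    IsBody K → IsBody L → 0 ≤ t → t ≤ 1 → 0 < vol (zonot a 1) → logComb K L t = zonot a 1 →
    vol K ^ (1 - t) * vol L ^ t ≤ vol (logComb K L t)

end Vale.Agent.P227.Zono
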