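import Vale.Agent.P227.Zono.Main
import Vale.Agent.P227.Zono.Pins2

/-!
P227: at every facet normal of a zonotope equal to the logarithmic combination of two bodies, the
geometric mean of the two support functions equals the support of the zonotope.
-/

noncomputable section

namespace Vale.Agent.P227.Zono

open MeasureTheory Set Matrix

variable {d : ℕ}

lemma continuous_supp {K : Set (Fin d → ℝ)} (hK : IsCompact K) : Continuous (supp K) :=
  hK.continuous_sSup (f := fun (y : Fin d → ℝ) (x : Fin d → ℝ) => ∑ i, y i * x i) (by fun_prop)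

lemma bddAbove_supp {K : Set (Fin d → ℝ)} (hK : IsCompact K) (y : Fin d → ℝ) :
    BddAbove ((fun x => ∑ i, y i * x i) '' K) :=
  (hK.image (by fun_prop)).bddAbove

lemma supp_pos {K : Set (Fin d → ℝ)} (hK : IsBody K) {y : Fin d → ℝ} (hy : y ≠ 0) :
    0 < supp K y := by
  obtain ⟨x, hx⟩ := interior_nonempty hK.1 hK.2.1 hK.2.2.2
  obtain ⟨ε, hε, hball⟩ := Metric.isOpen_iff.1 isOpen_interior x hx
  have hyn : 0 < ‖y‖ := norm_pos_iff.2 hy
  have hyy : 0 < ∑ i, y i * y i := by
    obtain ⟨i, hi⟩ := Function.ne_iff.1 hy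
    exact Finset.sum_pos' (fun j _ => mul_self_nonneg _)
      ⟨i, Finset.mem_univ _, mul_self_pos.2 hi⟩
  set r : ℝ := ε / (2 * ‖y‖) with hr
  have hr0 : 0 < r := by positivity
  have hmem : ∀ s : ℝ, |s| = r → x + s • y ∈ K := by
    intro s hs
    refine interior_subset (hball ?_)
    rw [Metric.mem_ball, dist_eq_norm, add_sub_cancel_left, norm_smul, Real.norm_eq_abs, hs, hr]
    rw [div_mul_eq_mul_div, div_lt_iff₀ (by positivity)]
    nlinarith
  have key : ∀ z ∈ K, ∑ i, y i * z i ≤ supp K y := fun z hz =>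
    le_csSup (bddAbove_supp hK.1 y) (mem_image_of_mem _ hz)
  have h1 := key _ (hmem r (abs_of_pos hr0))
  have h2 := key _ (hK.2.2.1 _ (hmem (-r) (by rw [abs_neg, abs_of_pos hr0])))
  simp only [Pi.add_apply, Pi.neg_apply, Pi.smul_apply, smul_eq_mul, mul_add, mul_neg,
    Finset.sum_add_distrib, Finset.sum_neg_distrib, mul_left_comm (y _), ← Finset.mul_sum]
    at h1 h2
  nlinarith

lemma supp_smul {K : Set (Fin d → ℝ)} {c : ℝ} (hc : 0 ≤ c) (y : Fin d → ℝ) :
    supp K (c • y) = c * supp K y := by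
  have h := Real.sSup_smul_of_nonneg hc ((fun x => ∑ i, y i * x i) '' K)
  rw [smul_eq_mul] at h
  rw [supp, supp, ← h, ← Set.image_smul, Set.image_image]
  refine congrArg sSup (Set.image_congr' fun x => ?_)
  simp [Finset.mul_sum, mul_assoc]

lemma mean_smul {K L : Set (Fin d → ℝ)} (hK : IsBody K) (hL : IsBody L) {t : ℝ} {c : ℝ}
    (hc : 0 < c) {y : Fin d → ℝ} (hy : y ≠ 0) :
    supp K (c • y) ^ (1 - t) * supp L (c • y) ^ t = c * (supp K y ^ (1 - t) * supp L y ^ t) := by
  have e : c = c ^ (1 - t) * c ^ t := by rw [← Real.rpow_add hc]; simp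
  rw [supp_smul hc.le, supp_smul hc.le, Real.mul_rpow hc.le (supp_pos hK hy).le,
    Real.mul_rpow hc.le (supp_pos hL hy).le]
  conv_rhs => rw [e]
  ring

theorem touching : Touching := by
  intro d m a K L t hK hL _ _ _ hM f hW
  let φ : (Fin (d + 1) → ℝ) →ₗ[ℝ] ℝ :=
    (Matrix.detRowAlternating (n := Fin (d + 1)) (R := ℝ)).toMultilinearMap.toLinearMap
      (Fin.snoc (fun i => a (f i)) 0) (Fin.last d)
  set u : Fin (d + 1) → ℝ := fun k => φ (Pi.single k 1) with hu_def
  have hφ : ∀ x, (Matrix.of (Fin.snoc (fun i => a (f i)) x)).det = ∑ k, u k * x k := by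
    intro x
    have h1 : φ x = (Matrix.of (Fin.snoc (fun i => a (f i)) x)).det := by
      simp only [φ, MultilinearMap.toLinearMap_apply, Fin.update_snoc_last]
      rfl
    have h2 := φ.pi_apply_eq_sum_univ x
    rw [← h1, h2]
    refine Finset.sum_congr rfl fun k _ => ?_
    rw [smul_eq_mul, mul_comm, hu_def]
    congr 2
    funext l
    simp [Pi.single_apply, eq_comm]
  have hw : weight a f = ∑ j, |∑ k, u k * a j k| := by
    simp only [weight, hφ]
  obtain ⟨j₀, -, hj₀⟩ := Finset.exists_ne_zero_of_sum_ne_zero (hw ▸ hW.ne')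
  rw [abs_ne_zero] at hj₀
  have hu0 : u ≠ 0 := fun h => hj₀ (by simp [h])
  have hsup : ∀ A : Set (Fin (d + 1) → ℝ), IsBody A → supDet a A f = supp A u := by
    intro A hA
    have hne : A.Nonempty := (interior_nonempty hA.1 hA.2.1 hA.2.2.2).mono interior_subset
    simp only [supDet, supp, hφ]
    apply le_antisymm <;> refine csSup_le (hne.image _) ?_ <;> rintro _ ⟨x, hx, rfl⟩
    · rcases le_total 0 (∑ k, u k * x k) with h | h
      · simp only [abs_of_nonneg h]
        exact le_csSup (bddAbove_supp hA.1 u) (mem_image_of_mem _ hx)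
      · refine le_csSup (bddAbove_supp hA.1 u) ⟨-x, hA.2.2.1 x hx, ?_⟩
        simp [abs_of_nonpos h, Finset.sum_neg_distrib]
    · exact (le_abs_self _).trans
        (le_csSup ((hA.1.image (by fun_prop)).bddAbove)
          (mem_image_of_mem (fun x => |∑ k, u k * x k|) hx))
  rw [hsup K hK, hsup L hL]
  refine ⟨supp_pos hK hu0, supp_pos hL hu0, ?_⟩
  set F : (Fin (d + 1) → ℝ) → ℝ := fun y => supp K y ^ (1 - t) * supp L y ^ t with hF
  have hFpos : ∀ y, y ≠ 0 → 0 < F y := fun y hy =>
    mul_pos (Real.rpow_pos_of_pos (supp_pos hK hy) _) (Real.rpow_pos_of_pos (supp_pos hL hy) _)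
  -- the maximiser of the functional `u` on the zonotope
  set l₀ : Fin m → ℝ := fun j => SignType.sign (∑ k, u k * a j k) with hl₀
  set x₀ : Fin (d + 1) → ℝ := ∑ j, l₀ j • a j with hx₀
  have hdot : ∀ (y : Fin (d + 1) → ℝ) (l : Fin m → ℝ),
      ∑ k, y k * (∑ j, l j • a j) k = ∑ j, l j * ∑ k, y k * a j k := by
    intro y l
    simp only [Finset.sum_apply, Pi.smul_apply, smul_eq_mul, Finset.mul_sum]
    rw [Finset.sum_comm]
    exact Finset.sum_congr rfl fun j _ => Finset.sum_congr rfl fun k _ => by ring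
  have hzmem : ∀ l : Fin m → ℝ, (∀ j, |l j| ≤ 1) → ∀ y, ∑ k, y k * (∑ j, l j • a j) k ≤ F y := by
    intro l hl
    have : (∑ j, l j • a j) ∈ logComb K L t := by
      rw [hM]
      exact ⟨l, fun j _ => ⟨(abs_le.1 (hl j)).1, (abs_le.1 (hl j)).2⟩, rfl⟩
    exact this
  have hl₀1 : ∀ j, |l₀ j| ≤ 1 := fun j => by
    rcases lt_trichotomy (∑ k, u k * a j k) 0 with h | h | h <;> simp [hl₀, h]
  have hux : ∑ k, u k * x₀ k = weight a f := by
    rw [hx₀, hdot, hw]
    exact Finset.sum_congr rfl fun j _ => sign_mul_self _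
  -- some constraint is tight at the maximiser
  have hact : ∃ y, y ≠ 0 ∧ ∑ k, y k * x₀ k = F y := by
    by_contra hcon
    push Not at hcon
    have hcF : Continuous F := by
      simp only [hF]
      refine ((continuous_supp hK.1).rpow_const fun y => Or.inr ?_).mul
        ((continuous_supp hL.1).rpow_const fun y => Or.inr ?_) <;> linarith
    have hne : (Metric.sphere (0 : Fin (d + 1) → ℝ) 1).Nonempty :=
      NormedSpace.sphere_nonempty.2 zero_le_one
    obtain ⟨y₁, hy₁, hmin⟩ := (isCompact_sphere (0 : Fin (d + 1) → ℝ) 1).exists_isMinOn hne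
      (f := fun y => F y - ∑ k, y k * x₀ k) (by fun_prop)
    have hy₁0 : y₁ ≠ 0 := by rintro rfl; simp at hy₁
    set δ := F y₁ - ∑ k, y₁ k * x₀ k with hδ
    have hδ0 : 0 < δ :=
      sub_pos.2 (lt_of_le_of_ne (hzmem l₀ hl₀1 y₁) (hcon y₁ hy₁0))
    set B := ∑ k, |u k| with hB
    have hB0 : 0 ≤ B := Finset.sum_nonneg fun k _ => abs_nonneg _
    have hmem : x₀ + (δ / (B + 1)) • u ∈ logComb K L t := by
      intro y
      rcases eq_or_ne y 0 with rfl | hy
      · simp only [Pi.zero_apply, zero_mul, Finset.sum_const_zero]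
        have : ∀ A : Set (Fin (d + 1) → ℝ), 0 ≤ supp A 0 := fun A =>
          Real.sSup_nonneg fun x hx => by obtain ⟨z, -, rfl⟩ := hx; simp
        exact mul_nonneg (Real.rpow_nonneg (this K) _) (Real.rpow_nonneg (this L) _)
      · have hn : 0 < ‖y‖ := norm_pos_iff.2 hy
        set z := ‖y‖⁻¹ • y with hz
        have hz1 : ‖z‖ = 1 := by
          rw [hz, norm_smul, norm_inv, norm_norm, inv_mul_cancel₀ hn.ne']
        have hz0 : z ≠ 0 := by intro h; simp [h] at hz1
        have hyz : y = ‖y‖ • z := by rw [hz, smul_smul, mul_inv_cancel₀ hn.ne', one_smul]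
        have hFy : F y = ‖y‖ * F z := by
          conv_lhs => rw [hyz]
          exact mean_smul hK hL hn hz0
        have hzu : ∑ k, z k * u k ≤ B := Finset.sum_le_sum fun k _ => by
          refine (le_abs_self _).trans ?_
          rw [abs_mul]
          have : |z k| ≤ 1 := by rw [← hz1, ← Real.norm_eq_abs]; exact norm_le_pi_norm z k
          exact mul_le_of_le_one_left (abs_nonneg _) this
        have hmz : δ ≤ F z - ∑ k, z k * x₀ k := hmin (by simpa using hz1)
        have hkey : ∑ k, z k * (x₀ + (δ / (B + 1)) • u) k ≤ F z := by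
          simp only [Pi.add_apply, Pi.smul_apply, smul_eq_mul, mul_add, Finset.sum_add_distrib,
            mul_left_comm (z _), ← Finset.mul_sum]
          have : δ / (B + 1) * ∑ k, z k * u k ≤ δ / (B + 1) * B :=
            mul_le_mul_of_nonneg_left hzu (by positivity)
          have h2 : δ / (B + 1) * B ≤ δ := by
            rw [div_mul_eq_mul_div, div_le_iff₀ (by positivity)]; nlinarith
          linarith
        calc ∑ k, y k * (x₀ + (δ / (B + 1)) • u) k
            = ‖y‖ * ∑ k, z k * (x₀ + (δ / (B + 1)) • u) k := by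
              rw [Finset.mul_sum]
              refine Finset.sum_congr rfl fun k _ => ?_
              conv_lhs => rw [hyz]
              simp [mul_assoc]
          _ ≤ ‖y‖ * F z := mul_le_mul_of_nonneg_left hkey hn.le
          _ = F y := hFy.symm
    rw [hM] at hmem
    obtain ⟨l, hl, he⟩ := hmem
    have h3 : ∑ k, u k * (x₀ + (δ / (B + 1)) • u) k ≤ weight a f := by
      rw [← he, hdot, hw]
      refine Finset.sum_le_sum fun j _ => ?_
      have hlj : |l j| ≤ 1 := abs_le.2 ⟨(hl j trivial).1, (hl j trivial).2⟩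
      refine (le_abs_self _).trans ?_
      rw [abs_mul]
      exact mul_le_of_le_one_left (abs_nonneg _) hlj
    simp only [Pi.add_apply, Pi.smul_apply, smul_eq_mul, mul_add, Finset.sum_add_distrib,
      mul_left_comm (u _), ← Finset.mul_sum, hux] at h3
    obtain ⟨k, hk⟩ := Function.ne_iff.1 hu0
    have huu : 0 < ∑ k, u k * u k :=
      Finset.sum_pos' (fun j _ => mul_self_nonneg _) ⟨k, Finset.mem_univ _, mul_self_pos.2 hk⟩
    have : 0 < δ / (B + 1) * ∑ k, u k * u k := mul_pos (by positivity) huu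
    linarith
  obtain ⟨y, hy0, hy⟩ := hact
  -- the tight constraint is a positive multiple of the common normal
  have hperp : ∀ j, ∑ k, u k * a j k = 0 → ∑ k, y k * a j k = 0 := by
    intro j hj
    have hlj : l₀ j = 0 := by simp [hl₀, hj]
    have step : ∀ s : ℝ, |s| ≤ 1 → s * ∑ k, y k * a j k ≤ 0 := by
      intro s hs
      have h := hzmem (Function.update l₀ j s) (fun i => by
        rcases eq_or_ne i j with rfl | hi
        · simpa using hs
        · simpa [hi] using hl₀1 i) y
      rw [← hy, hx₀, hdot, hdot] at h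
      have e : ∀ i, Function.update l₀ j s i * (∑ k, y k * a i k) =
          l₀ i * (∑ k, y k * a i k) + if i = j then s * ∑ k, y k * a j k else 0 := fun i => by
        rcases eq_or_ne i j with rfl | hi
        · simp [hlj]
        · simp [hi]
      simp only [e, Finset.sum_add_distrib, Finset.sum_ite_eq', Finset.mem_univ, if_true] at h
      linarith
    have h1 := step 1 (by simp)
    have h2 := step (-1) (by simp)
    linarith
  have hufk : ∀ i, ∑ k, u k * a (f i) k = 0 := fun i => by
    rw [← hφ]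
    refine Matrix.det_zero_of_row_eq (i := Fin.castSucc i) (j := Fin.last d)
      (ne_of_lt (Fin.castSucc_lt_last i)) ?_
    funext k
    simp
  set c : ℝ := (∑ k, y k * a j₀ k) / ∑ k, u k * a j₀ k with hc
  have hyu : y = c • u := by
    set A : Matrix (Fin (d + 1)) (Fin (d + 1)) ℝ :=
      Matrix.of (Fin.snoc (fun i => a (f i)) (a j₀)) with hA
    have hdet : A.det ≠ 0 := by rw [hA, hφ]; exact hj₀
    have : A.mulVec (y - c • u) = 0 := by
      funext i
      simp only [Matrix.mulVec, dotProduct, hA, Matrix.of_apply, Pi.sub_apply, Pi.smul_apply,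
        smul_eq_mul, mul_sub, Finset.sum_sub_distrib, mul_left_comm _ c, ← Finset.mul_sum,
        Pi.zero_apply]
      refine Fin.lastCases ?_ (fun i => ?_) i
      · simp only [Fin.snoc_last, mul_comm (a j₀ _)]
        rw [hc, div_mul_cancel₀ _ hj₀, sub_self]
      · simp only [Fin.snoc_castSucc, mul_comm (a (f i) _)]
        rw [hperp _ (hufk i), hufk i, mul_zero, sub_zero]
    exact sub_eq_zero.1 (Matrix.eq_zero_of_mulVec_eq_zero hdet this)
  have hsum : ∑ k, y k * x₀ k = c * weight a f := by
    rw [← hux, hyu, Finset.mul_sum]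
    exact Finset.sum_congr rfl fun k _ => by simp [mul_assoc]
  have hc0 : 0 < c := by
    have : 0 < c * weight a f := by rw [← hsum, hy]; exact hFpos y hy0
    exact pos_of_mul_pos_left this hW.le
  have : c * F u = c * weight a f := by
    rw [← hsum, hy, hyu]
    exact (mean_smul hK hL hc0 hu0).symm
  exact mul_left_cancel₀ hc0.ne' this

end Vale.Agent.P227.Zono
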