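import Vale.Agent.P227.Zono.Main
import Vale.Agent.P227.Zono.Pins4
import Vale.Agent.P227.Zono.ChartExists
import Vale.Agent.P227.Zono.Posynomial
import Vale.Agent.P227.Zono.Power
import Vale.Agent.P227.Zono.Touching

/-!
P227: on a zonotope the law of the gradient of the gauge is given by the determinant weights.

For a facet normal `p`, scaled to support value one, the cone over the facet is, in coordinates, a
cone over the same base as the prism spanned by the facet and the point `x₀` where it is centred,
and the volume of the prism is a determinant sum. The cone volumes add up to the whole volume, so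
nothing has to be said about covering.
-/

noncomputable section

namespace Vale.Agent.P227.Zono

open MeasureTheory Set Matrix
open scoped Pointwise ENNReal

namespace Cone

variable {d m : ℕ}

lemma powerBound' : PowerBound := powerBound (posynomial chartExists)

/-- The linear functional of a vector. -/
def dot (p : Fin d → ℝ) : (Fin d → ℝ) →ₗ[ℝ] ℝ where
  toFun x := ∑ k, p k * x k
  map_add' x y := by simp [mul_add, Finset.sum_add_distrib]
  map_smul' c x := by simp [Finset.mul_sum, mul_left_comm]

lemma dot_apply (p x : Fin d → ℝ) : dot p x = ∑ k, p k * x k := rfl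

/-- The volume of a zonotope as a determinant sum over all tuples. -/
lemma vol_eq_det (d m : ℕ) (a : Fin m → Fin d → ℝ) :
    ∑ g : Fin d → Fin m, |(Matrix.of fun i => a (g i)).det| =
      (d.factorial : ℝ) / 2 ^ d * vol (zonot a 1) := by
  cases d with
  | zero =>
    have hne : (zonot a 1).Nonempty := ⟨0, 0, fun j _ => ⟨by simp, by simp⟩, by simp⟩
    rw [hne.eq_univ, vol, volume_pi, Measure.pi_of_empty, measure_univ, Fintype.sum_unique]
    simp
  | succ k =>
    rw [← sum_weight chartExists powerBound' k m a,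
      ← (Fin.snocEquiv fun _ : Fin (k + 1) => Fin m).sum_comp, Fintype.sum_prod_type,
      Finset.sum_comm]
    refine Finset.sum_congr rfl fun f _ => Finset.sum_congr rfl fun j _ => ?_
    congr 3
    funext i
    refine Fin.lastCases ?_ (fun l => ?_) i <;> simp [Fin.snocEquiv]

lemma abs_det_cons (x : Fin (d + 1) → ℝ) (r : Fin d → Fin (d + 1) → ℝ) :
    |(Matrix.of (Fin.cons x r)).det| = |(Matrix.of (Fin.snoc r x)).det| := by
  have h : Matrix.of (Fin.cons x r) =
      (Matrix.of (Fin.snoc r x)).submatrix (finRotate (d + 1)).symm id := by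
    ext i k
    simp only [Matrix.submatrix_apply, id, Matrix.of_apply]
    rw [show i = finRotate (d + 1) ((finRotate (d + 1)).symm i) from
      ((finRotate (d + 1)).apply_symm_apply i).symm]
    generalize (finRotate (d + 1)).symm i = l
    rw [Equiv.symm_apply_apply, finRotate_apply]
    refine Fin.lastCases ?_ (fun l => ?_) l
    · simp
    · simp [Fin.coeSucc_eq_succ]
  rw [h, Matrix.det_permute]
  simp [abs_mul]

/-- The common normal of a tuple, scaled by its weight. -/
def nrm (a : Fin m → Fin (d + 1) → ℝ) (f : Fin d → Fin m) : Fin (d + 1) → ℝ :=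
  fun k => (Matrix.of (Fin.snoc (fun i => a (f i)) (Pi.single k 1))).det / weight a f

lemma det_eq_dot (r : Fin d → Fin (d + 1) → ℝ) (x : Fin (d + 1) → ℝ) :
    (Matrix.of (Fin.snoc r x)).det =
      ∑ k, (Matrix.of (Fin.snoc r (Pi.single k 1))).det * x k := by
  let φ : (Fin (d + 1) → ℝ) →ₗ[ℝ] ℝ :=
    (Matrix.detRowAlternating (n := Fin (d + 1)) (R := ℝ)).toMultilinearMap.toLinearMap
      (Fin.snoc r 0) (Fin.last d)
  have h : ∀ y, φ y = (Matrix.of (Fin.snoc r y)).det := fun y => by
    simp only [φ, MultilinearMap.toLinearMap_apply, Fin.update_snoc_last]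
    rfl
  rw [← h, φ.pi_apply_eq_sum_univ x]
  refine Finset.sum_congr rfl fun k _ => ?_
  rw [smul_eq_mul, mul_comm, ← h]
  congr 2
  funext l
  simp [Pi.single_apply, eq_comm]

lemma dot_nrm (a : Fin m → Fin (d + 1) → ℝ) (f : Fin d → Fin m) (x : Fin (d + 1) → ℝ) :
    dot (nrm a f) x = (Matrix.of (Fin.snoc (fun i => a (f i)) x)).det / weight a f := by
  rw [dot_apply, det_eq_dot _ x, Finset.sum_div]
  exact Finset.sum_congr rfl fun k _ => by rw [nrm, div_mul_eq_mul_div]

/-- Facet normals: support value one, both signs. -/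
def normals (a : Fin m → Fin (d + 1) → ℝ) : Finset (Fin (d + 1) → ℝ) :=
  (Finset.univ.filter fun f : Fin d → Fin m => 0 < weight a f).image (nrm a) ∪
    (Finset.univ.filter fun f : Fin d → Fin m => 0 < weight a f).image fun f => -nrm a f

/-- The generators orthogonal to `p`. -/
def flat (a : Fin m → Fin (d + 1) → ℝ) (p : Fin (d + 1) → ℝ) (j : Fin m) : Fin (d + 1) → ℝ :=
  if dot p (a j) = 0 then a j else 0

/-- The centre of the face with normal `p`. -/
def centre (a : Fin m → Fin (d + 1) → ℝ) (p : Fin (d + 1) → ℝ) : Fin (d + 1) → ℝ :=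
  ∑ j, (SignType.sign (dot p (a j)) : ℝ) • a j

lemma mem_normals {a : Fin m → Fin (d + 1) → ℝ} {p : Fin (d + 1) → ℝ} (hp : p ∈ normals a) :
    ∃ f, 0 < weight a f ∧ (p = nrm a f ∨ p = -nrm a f) := by
  simp only [normals, Finset.mem_union, Finset.mem_image, Finset.mem_filter, Finset.mem_univ,
    true_and] at hp
  rcases hp with ⟨f, hf, rfl⟩ | ⟨f, hf, rfl⟩
  · exact ⟨f, hf, Or.inl rfl⟩
  · exact ⟨f, hf, Or.inr rfl⟩

lemma normals_spec {a : Fin m → Fin (d + 1) → ℝ} {p : Fin (d + 1) → ℝ} (hp : p ∈ normals a) :
    ∑ j, |dot p (a j)| = 1 ∧ dot p (centre a p) = 1 := by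
  obtain ⟨f, hf, h⟩ := mem_normals hp
  have habs : ∀ j, |dot p (a j)| = |dot (nrm a f) (a j)| := fun j => by
    rcases h with rfl | rfl <;> simp [dot_apply, Finset.sum_neg_distrib, abs_neg]
  have h1 : ∑ j, |dot p (a j)| = 1 := by
    simp only [habs, dot_nrm, abs_div, abs_of_pos hf, ← Finset.sum_div]
    exact div_self hf.ne'
  refine ⟨h1, ?_⟩
  rw [centre, map_sum, ← h1]
  refine Finset.sum_congr rfl fun j _ => ?_
  rw [map_smul, smul_eq_mul]
  exact sign_mul_self _

lemma dot_mem_le {a : Fin m → Fin (d + 1) → ℝ} {p x : Fin (d + 1) → ℝ} (hp : p ∈ normals a)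
    (hx : x ∈ zonot a 1) : dot p x ≤ 1 := by
  obtain ⟨l, hl, rfl⟩ := hx
  rw [map_sum, ← (normals_spec hp).1]
  refine Finset.sum_le_sum fun j _ => ?_
  rw [map_smul, smul_eq_mul]
  refine (le_abs_self _).trans ?_
  rw [abs_mul]
  exact mul_le_of_le_one_left (abs_nonneg _) (abs_le.2 ⟨(hl j trivial).1, (hl j trivial).2⟩)

lemma centre_add_mem {a : Fin m → Fin (d + 1) → ℝ} {p z : Fin (d + 1) → ℝ}
    (hz : z ∈ zonot (flat a p) 1) : centre a p + z ∈ zonot a 1 := by
  obtain ⟨l, hl, rfl⟩ := hz
  refine ⟨fun j => if dot p (a j) = 0 then l j else (SignType.sign (dot p (a j)) : ℝ),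
    fun j _ => ?_, ?_⟩
  · dsimp only
    split_ifs with h
    · exact hl j trivial
    · rcases lt_or_gt_of_ne h with h | h <;> simp [h]
  · simp only [centre, ← Finset.sum_add_distrib]
    refine Finset.sum_congr rfl fun j _ => ?_
    by_cases h : dot p (a j) = 0 <;> simp [flat, h]

lemma dot_flat {a : Fin m → Fin (d + 1) → ℝ} {p z : Fin (d + 1) → ℝ}
    (hz : z ∈ zonot (flat a p) 1) : dot p z = 0 := by
  obtain ⟨l, -, rfl⟩ := hz
  rw [map_sum]
  refine Finset.sum_eq_zero fun j _ => ?_
  rw [map_smul]
  by_cases h : dot p (a j) = 0 <;> simp [flat, h]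

lemma vol_zero_of_dot {S : Set (Fin (d + 1) → ℝ)} {p : Fin (d + 1) → ℝ} (hp : p ≠ 0)
    (hS : ∀ x ∈ S, dot p x = 0) : volume S = 0 := by
  have hker : (dot p).ker ≠ ⊤ := by
    intro h
    obtain ⟨k, hk⟩ := Function.ne_iff.1 hp
    have : dot p (Pi.single k 1) = 0 := by
      rw [← LinearMap.mem_ker, h]; trivial
    simp [dot_apply, Pi.single_apply] at this
    exact hk this
  exact measure_mono_null (fun x hx => hS x hx) (Measure.addHaar_submodule volume _ hker)

/-- The tuples of generators with common normal `± p`. -/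
def tuples (a : Fin m → Fin (d + 1) → ℝ) (p : Fin (d + 1) → ℝ) : Finset (Fin d → Fin m) :=
  Finset.univ.filter fun f => 0 < weight a f ∧ (p = nrm a f ∨ p = -nrm a f)

/-- The prism over the face, as a determinant sum. -/
lemma vol_prism (a : Fin m → Fin (d + 1) → ℝ) {p : Fin (d + 1) → ℝ} (hp : p ∈ normals a) :
    vol (grow (centre a p) 1 (zonot (flat a p) 1)) =
      2 ^ (d + 1) / (d.factorial : ℝ) * ∑ f ∈ tuples a p, weight a f := by
  obtain ⟨hsum, hc⟩ := normals_spec hp
  have hc0 : centre a p ≠ 0 := fun h => by simp [h] at hc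
  have hp0 : p ≠ 0 := fun h => by simp [h, dot_apply] at hc
  obtain ⟨q, α, hα, -, -, hgrow, hdet⟩ := chartExists d (centre a p) hc0
  rw [hgrow _ (isCompact_zonot _ _) (convex_zonot _ _) 1 zero_le_one,
    show vol (zonot (flat a p) 1) = 0 by
      rw [vol, vol_zero_of_dot hp0 (fun x hx => dot_flat hx), ENNReal.toReal_zero],
    map_zonot]
  have hterm : ∀ g : Fin d → Fin m,
      α * |(Matrix.of fun i => q (flat a p (g i))).det| =
        if g ∈ tuples a p then weight a g else 0 := by
    intro g
    rw [← hdet, abs_det_cons]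
    by_cases hJ : ∀ i, dot p (a (g i)) = 0
    · have e : (fun i => flat a p (g i)) = fun i => a (g i) := funext fun i => if_pos (hJ i)
      rw [e]
      set M : Matrix (Fin (d + 1)) (Fin (d + 1)) ℝ :=
        Matrix.of (Fin.snoc (fun i => a (g i)) (centre a p)) with hM
      by_cases hw : 0 < weight a g
      · have hD : M.det = weight a g * dot (nrm a g) (centre a p) := by
          rw [dot_nrm, mul_div_cancel₀ _ hw.ne']
        -- `p` is a multiple of the normal of `g`
        obtain ⟨j₀, -, hj₀⟩ := Finset.exists_ne_zero_of_sum_ne_zero hw.ne'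
        rw [abs_ne_zero] at hj₀
        set n := nrm a g with hn
        have hnj : dot n (a j₀) ≠ 0 := by
          rw [hn, dot_nrm]; exact div_ne_zero hj₀ hw.ne'
        set c := dot p (a j₀) / dot n (a j₀) with hcdef
        have hng : ∀ i, dot n (a (g i)) = 0 := fun i => by
          rw [hn, dot_nrm, div_eq_zero_iff]
          left
          refine Matrix.det_zero_of_row_eq (i := Fin.castSucc i) (j := Fin.last d)
            (ne_of_lt (Fin.castSucc_lt_last i)) ?_
          funext k
          simp
        have hpn : p = c • n := by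
          have hz : (Matrix.of (Fin.snoc (fun i => a (g i)) (a j₀))).mulVec (p - c • n) = 0 := by
            funext i
            have hlin : ∀ r : Fin (d + 1) → ℝ,
                ∑ k, r k * (p - c • n) k = dot p r - c * dot n r := fun r => by
              simp only [dot_apply, Pi.sub_apply, Pi.smul_apply, smul_eq_mul, Finset.mul_sum,
                ← Finset.sum_sub_distrib]
              exact Finset.sum_congr rfl fun k _ => by ring
            simp only [Matrix.mulVec, dotProduct, Matrix.of_apply, hlin, Pi.zero_apply]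
            refine Fin.lastCases ?_ (fun i => ?_) i
            · rw [Fin.snoc_last, hcdef, div_mul_cancel₀ _ hnj, sub_self]
            · rw [Fin.snoc_castSucc, hJ i, hng i, mul_zero, sub_zero]
          exact sub_eq_zero.1 (Matrix.eq_zero_of_mulVec_eq_zero hj₀ hz)
        have hdp : ∀ x, dot p x = c * dot n x := fun x => by
          simp [hpn, dot_apply, Finset.mul_sum, mul_assoc]
        have hn1 : ∑ j, |dot n (a j)| = 1 := by
          simp only [hn, dot_nrm, abs_div, abs_of_pos hw, ← Finset.sum_div]
          exact div_self hw.ne'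
        have habsc : |c| = 1 := by
          simpa [hdp, abs_mul, ← Finset.mul_sum, hn1] using hsum
        have hmem : g ∈ tuples a p := by
          rcases (abs_eq zero_le_one).1 habsc with h | h <;>
            simp [tuples, hw, ← hn, hpn, h]
        have hdn : |dot n (centre a p)| = 1 := by
          have : |c| * |dot n (centre a p)| = 1 := by rw [← abs_mul, ← hdp, hc, abs_one]
          rwa [habsc, one_mul] at this
        rw [if_pos hmem, hD, abs_mul, abs_of_pos hw, hdn, mul_one]
      · rw [if_neg (by simp [tuples, hw])]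
        have h0 : weight a g = 0 :=
          le_antisymm (not_lt.1 hw) (Finset.sum_nonneg fun _ _ => abs_nonneg _)
        have hall : ∀ j, (Matrix.of (Fin.snoc (fun i => a (g i)) (a j))).det = 0 := fun j => by
          simpa using (Finset.sum_eq_zero_iff_of_nonneg (fun _ _ => abs_nonneg _)).1 h0 j
            (Finset.mem_univ j)
        rw [det_eq_dot, abs_eq_zero]
        simp only [centre, Finset.sum_apply, Pi.smul_apply, smul_eq_mul, Finset.mul_sum]
        rw [Finset.sum_comm]
        refine Finset.sum_eq_zero fun j _ => ?_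
        simp only [mul_left_comm _ (SignType.sign (dot p (a j)) : ℝ), ← Finset.mul_sum]
        rw [← det_eq_dot, hall, mul_zero]
    · push Not at hJ
      obtain ⟨i, hi⟩ := hJ
      have hz : (Matrix.of (Fin.snoc (fun i => flat a p (g i)) (centre a p))).det = 0 :=
        Matrix.det_eq_zero_of_row_eq_zero (Fin.castSucc i) fun k => by simp [flat, hi]
      rw [hz, abs_zero, if_neg]
      simp only [tuples, Finset.mem_filter, Finset.mem_univ, true_and]
      rintro ⟨-, h⟩
      refine hi ?_
      have : dot (nrm a g) (a (g i)) = 0 := by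
        rw [dot_nrm, div_eq_zero_iff]
        left
        refine Matrix.det_zero_of_row_eq (i := Fin.castSucc i) (j := Fin.last d)
          (ne_of_lt (Fin.castSucc_lt_last i)) ?_
        funext k
        simp
      rcases h with rfl | rfl
      · exact this
      · simp only [dot_apply, Pi.neg_apply, neg_mul, Finset.sum_neg_distrib]
        rw [← dot_apply, this, neg_zero]
  have h := vol_eq_det d m (fun j => q (flat a p j))
  have hs : α * ((d.factorial : ℝ) / 2 ^ d * vol (zonot (fun j => q (flat a p j)) 1)) =
      ∑ f ∈ tuples a p, weight a f := by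
    rw [← h, Finset.mul_sum, Finset.sum_congr rfl fun g _ => hterm g]
    simp [Finset.sum_ite_mem]
  rw [← hs, pow_succ]
  have : (d.factorial : ℝ) ≠ 0 := by exact_mod_cast d.factorial_ne_zero
  field_simp
  ring

/-- The open cone over a face: the gradient of the gauge is `p` there, and its volume is a
`2 (d + 1)`-th of the prism. -/
lemma exists_cone (a : Fin m → Fin (d + 1) → ℝ)
    {p : Fin (d + 1) → ℝ} (hp : p ∈ normals a) :
    ∃ U : Set (Fin (d + 1) → ℝ), IsOpen U ∧ U ⊆ zonot a 1 ∧
      (∀ x ∈ U, gaugeGrad (zonot a 1) x = p) ∧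
      vol U = 2 ^ d / ((d + 1).factorial : ℝ) * ∑ f ∈ tuples a p, weight a f := by
  obtain ⟨hsum, hc⟩ := normals_spec hp
  have hp0 : p ≠ 0 := fun h => by simp [h, dot_apply] at hc
  obtain ⟨k, hk⟩ := Function.ne_iff.1 hp0
  have hk : p k ≠ 0 := hk
  set x₀ := centre a p with hx₀
  set rest : (Fin (d + 1) → ℝ) →ₗ[ℝ] Fin d → ℝ :=
    LinearMap.funLeft ℝ ℝ k.succAbove ∘ₗ (LinearMap.id - (dot p).smulRight x₀) with hrest
  have hrest_apply : ∀ x i, rest x i = x (k.succAbove i) - dot p x * x₀ (k.succAbove i) :=
    fun x i => rfl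
  let T : (Fin (d + 1) → ℝ) →ₗ[ℝ] (Fin (d + 1) → ℝ) :=
    { toFun := fun x => k.insertNth (dot p x) (rest x)
      map_add' := fun x y => by
        funext l
        rcases Fin.eq_self_or_eq_succAbove k l with rfl | ⟨i, rfl⟩ <;> simp [map_add]
      map_smul' := fun c x => by
        funext l
        rcases Fin.eq_self_or_eq_succAbove k l with rfl | ⟨i, rfl⟩ <;> simp [map_smul] }
  have hTk : ∀ x, T x k = dot p x := fun x => by simp [T]
  have hTi : ∀ x i, T x (k.succAbove i) = rest x i := fun x i => by simp [T]
  have hTinj : Function.Injective T := by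
    rw [← LinearMap.ker_eq_bot, LinearMap.ker_eq_bot']
    intro x hx
    have h1 : dot p x = 0 := by rw [← hTk, hx]; rfl
    have h2 : ∀ i, x (k.succAbove i) = 0 := fun i => by
      have : rest x i = 0 := by rw [← hTi, hx]; rfl
      simpa [hrest_apply, h1] using this
    funext l
    rcases Fin.eq_self_or_eq_succAbove k l with hl | ⟨i, hl⟩ <;> rw [hl]
    · rw [dot_apply, Fin.sum_univ_succAbove _ k] at h1
      simpa [h2, hk] using h1
    · exact h2 i
  set Φ := LinearEquiv.ofInjectiveEndo T hTinj with hΦ
  have hΦx : ∀ x, Φ x = T x := fun x => rfl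
  have hdet : T.det ≠ 0 := (LinearMap.isUnit_det T (Φ.toLinearMap.isUnit_iff_ker_eq_bot.2
    (LinearMap.ker_eq_bot.2 hTinj))).ne_zero
  set Q := rest '' zonot (flat a p) 1 with hQ
  have hQc : IsCompact Q := (isCompact_zonot _ _).image rest.continuous_of_finiteDimensional
  have hQv : Convex ℝ Q := (convex_zonot _ _).linear_image rest
  have hrx0 : rest x₀ = 0 := by funext i; simp [hrest_apply, hc]
  -- the prism in coordinates
  set e := MeasurableEquiv.piFinSuccAbove (fun _ : Fin (d + 1) => ℝ) k with he
  have hep : MeasurePreserving e volume (volume.prod volume) :=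
    volume_preserving_piFinSuccAbove (fun _ : Fin (d + 1) => ℝ) k
  have hex : ∀ x, e (T x) = (dot p x, rest x) := fun x => by
    refine Prod.ext ?_ (funext fun i => ?_)
    · simp [he, MeasurableEquiv.piFinSuccAbove_apply, Fin.insertNthEquiv, hTk]
    · simp [he, MeasurableEquiv.piFinSuccAbove_apply, Fin.insertNthEquiv, Fin.removeNth, hTi]
  have hpre : ∀ S : Set (ℝ × (Fin d → ℝ)), MeasurableSet S →
      volume ((fun x => e (T x)) ⁻¹' S) =
        ENNReal.ofReal |(T.det)⁻¹| * (volume.prod volume) S := by
    intro S hS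
    rw [show (fun x => e (T x)) ⁻¹' S = T ⁻¹' (e ⁻¹' S) from rfl,
      Measure.addHaar_preimage_linearMap volume hdet,
      hep.measure_preimage hS.nullMeasurableSet]
  have hprism : grow x₀ 1 (zonot (flat a p) 1) = (fun x => e (T x)) ⁻¹' (Icc (-1 : ℝ) 1 ×ˢ Q) := by
    ext x
    simp only [grow, mem_image, mem_prod, mem_preimage, hex]
    constructor
    · rintro ⟨⟨z, s⟩, ⟨hz, hs⟩, rfl⟩
      refine ⟨?_, z, hz, ?_⟩
      · simpa [dot_flat hz, hc] using hs
      · simp [map_add, map_smul, hrx0]
    · rintro ⟨hs, z, hz, hzx⟩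
      refine ⟨(z, dot p x), ⟨hz, hs⟩, hTinj ?_⟩
      funext l
      rcases Fin.eq_self_or_eq_succAbove k l with rfl | ⟨i, rfl⟩
      · simp [hTk, dot_flat hz, hc]
      · simp [hTi, map_add, map_smul, hrx0, hzx]
  set C : Set (ℝ × (Fin d → ℝ)) := {y | y.1 ∈ Ioo (0 : ℝ) 1 ∧ y.1⁻¹ • y.2 ∈ interior Q} with hC
  have hCopen : IsOpen C := by
    have h1 : IsOpen {y : ℝ × (Fin d → ℝ) | y.1 ∈ Ioo (0 : ℝ) 1} := isOpen_Ioo.preimage continuous_fst
    have hc' : ContinuousOn (fun y : ℝ × (Fin d → ℝ) => y.1⁻¹ • y.2)
        {y | y.1 ∈ Ioo (0 : ℝ) 1} :=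
      (continuous_fst.continuousOn.inv₀ fun y hy => ne_of_gt hy.1).smul continuous_snd.continuousOn
    exact hc'.isOpen_inter_preimage h1 isOpen_interior
  set U := (fun x => e (T x)) ⁻¹' C with hU
  have hcont : Continuous fun x => (dot p x, rest x) :=
    (dot p).continuous_of_finiteDimensional.prodMk rest.continuous_of_finiteDimensional
  have hUopen : IsOpen U := by
    rw [hU, show (fun x => e (T x)) = fun x => (dot p x, rest x) from funext hex]
    exact hCopen.preimage hcont
  have hscale : ∀ x ∈ U, 0 < dot p x ∧ dot p x < 1 ∧ (dot p x)⁻¹ • x ∈ zonot a 1 := by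
    intro x hx
    simp only [hU, hC, mem_preimage, hex, mem_ofPred_eq, mem_Ioo] at hx
    obtain ⟨⟨h0, h1⟩, h2⟩ := hx
    obtain ⟨z, hz, hzx⟩ := interior_subset h2
    refine ⟨h0, h1, ?_⟩
    have : (dot p x)⁻¹ • x = x₀ + z := by
      refine hTinj (funext fun l => ?_)
      rcases Fin.eq_self_or_eq_succAbove k l with rfl | ⟨i, rfl⟩
      · simp [hTk, dot_flat hz, hc, inv_mul_cancel₀ h0.ne']
      · simp [hTi, map_add, map_smul, hrx0, hzx]
    rw [this]
    exact centre_add_mem hz
  have hzero : (0 : Fin (d + 1) → ℝ) ∈ zonot a 1 := ⟨0, fun j _ => ⟨by simp, by simp⟩, by simp⟩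
  have hgauge : ∀ x ∈ U, gauge (zonot a 1) x = dot p x := by
    intro x hx
    obtain ⟨h0, -, hmem⟩ := hscale x hx
    refine le_antisymm (gauge_le_of_mem h0.le ?_) ?_
    · rw [← inv_inv (dot p x), mem_inv_smul_set_iff₀ (inv_ne_zero h0.ne')]
      exact hmem
    · refine le_csInf ⟨dot p x, h0, ?_⟩ ?_
      · rw [← inv_inv (dot p x), mem_inv_smul_set_iff₀ (inv_ne_zero h0.ne')]
        exact hmem
      · rintro r ⟨hr, z, hz, rfl⟩
        rw [map_smul, smul_eq_mul]
        exact mul_le_of_le_one_right hr.le (dot_mem_le hp hz)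
  refine ⟨U, hUopen, fun x hx => ?_, fun x hx => ?_, ?_⟩
  · obtain ⟨h0, h1, hmem⟩ := hscale x hx
    have := (convex_zonot a 1).smul_mem_of_zero_mem hzero hmem (show dot p x ∈ Icc (0 : ℝ) 1 from
      ⟨h0.le, h1.le⟩)
    rwa [smul_smul, mul_inv_cancel₀ h0.ne', one_smul] at this
  · have hev : gauge (zonot a 1) =ᶠ[nhds x] fun y => dot p y := by
      filter_upwards [hUopen.mem_nhds hx] with y hy
      exact hgauge y hy
    have hd : fderiv ℝ (gauge (zonot a 1)) x = LinearMap.toContinuousLinearMap (dot p) := by
      rw [hev.fderiv_eq]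
      exact (LinearMap.toContinuousLinearMap (dot p)).hasFDerivAt.fderiv
    funext i
    simp [gaugeGrad, hd, dot_apply, Pi.single_apply]
  · have hQint : volume (interior Q) = volume Q := by
      refine measure_eq_measure_of_null_sdiff interior_subset ?_
      refine measure_mono_null ?_ (hQv.addHaar_frontier (μ := volume))
      exact sdiff_subset_sdiff_left subset_closure
    have hCvol : (volume.prod volume) C = ENNReal.ofReal (1 / ((d : ℝ) + 1)) * volume Q := by
      rw [Measure.prod_apply hCopen.measurableSet]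
      have hslice : ∀ s : ℝ, volume (Prod.mk s ⁻¹' C) =
          (Ioo (0 : ℝ) 1).indicator (fun s => ENNReal.ofReal (s ^ d) * volume Q) s := by
        intro s
        by_cases hs : s ∈ Ioo (0 : ℝ) 1
        · have : Prod.mk s ⁻¹' C = s • interior Q := by
            ext y
            simp [hC, hs.1, hs.2, Set.mem_smul_set_iff_inv_smul_mem₀ hs.1.ne']
          rw [indicator_of_mem hs, this, Measure.addHaar_smul, Module.finrank_fin_fun,
            abs_pow, abs_of_pos hs.1, hQint]
        · have : Prod.mk s ⁻¹' C = ∅ :=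
            eq_empty_of_forall_notMem fun y hy => hs hy.1
          rw [indicator_of_notMem hs, this, measure_empty]
      rw [lintegral_congr hslice, lintegral_indicator measurableSet_Ioo,
        lintegral_mul_const _ (by fun_prop),
        ← ofReal_integral_eq_lintegral_ofReal
          (((continuous_pow d).integrableOn_Icc).mono_set Ioo_subset_Icc_self)
          (ae_restrict_of_forall_mem measurableSet_Ioo fun s hs => pow_nonneg hs.1.le d),
        ← integral_Ioc_eq_integral_Ioo, ← intervalIntegral.integral_of_le zero_le_one,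
        integral_pow]
      simp
    have hvp := vol_prism a hp
    rw [hprism, vol, hpre _ (measurableSet_Icc.prod hQc.measurableSet), Measure.prod_prod,
      Real.volume_Icc, ENNReal.toReal_mul, ENNReal.toReal_mul,
      ENNReal.toReal_ofReal (abs_nonneg _), ENNReal.toReal_ofReal (by norm_num)] at hvp
    rw [hU, vol, hpre C hCopen.measurableSet, hCvol, ENNReal.toReal_mul, ENNReal.toReal_mul,
      ENNReal.toReal_ofReal (abs_nonneg _), ENNReal.toReal_ofReal (by positivity),
      Nat.factorial_succ]
    push_cast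
    rw [pow_succ] at hvp
    have : (d.factorial : ℝ) ≠ 0 := by exact_mod_cast d.factorial_ne_zero
    have hd1 : (d : ℝ) + 1 ≠ 0 := by positivity
    field_simp at hvp ⊢
    linarith

end Cone

open Cone in
theorem zonotopeCone : ZonotopeCone := by
  intro d m a L hV hL
  set Z := zonot a 1 with hZdef
  set W := ∑ f : Fin d → Fin m, weight a f with hWdef
  have hW : W = ((d + 1).factorial : ℝ) / 2 ^ (d + 1) * vol Z :=
    sum_weight chartExists powerBound' d m a
  choose U hUo hUsub hUg hUv using fun p : normals a => exists_cone a p.2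
  set N := (normals a).attach with hN
  -- double counting
  have hcount : ∀ F : (Fin (d + 1) → ℝ) → ℝ, (∀ p, F (-p) = F p) →
      ∑ p ∈ normals a, (∑ f ∈ tuples a p, weight a f) * F p =
        2 * ∑ f, weight a f * F (nrm a f) := by
    intro F hF
    simp only [tuples, Finset.sum_mul, Finset.sum_filter]
    rw [Finset.sum_comm, Finset.mul_sum]
    refine Finset.sum_congr rfl fun f _ => ?_
    by_cases hw : 0 < weight a f
    · have hne : nrm a f ≠ -nrm a f := by
        intro h
        have hsum := (normals_spec (a := a) (p := nrm a f) (Finset.mem_union_left _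
          (Finset.mem_image_of_mem _ (by simp [hw])))).2
        have : nrm a f = 0 := funext fun i => by
          have h' := congrFun h i
          rw [Pi.neg_apply] at h'
          show nrm a f i = 0
          linarith
        simp [this, dot_apply] at hsum
      have e : (normals a).filter (fun p => 0 < weight a f ∧ (p = nrm a f ∨ p = -nrm a f)) =
          {nrm a f, -nrm a f} := by
        ext p
        simp only [Finset.mem_filter, Finset.mem_insert, Finset.mem_singleton, hw, true_and]
        refine ⟨fun h => h.2, fun h => ⟨?_, h⟩⟩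
        rcases h with rfl | rfl
        · exact Finset.mem_union_left _ (Finset.mem_image_of_mem _ (by simp [hw]))
        · exact Finset.mem_union_right _
            (Finset.mem_image_of_mem (fun f => -nrm a f) (by simp [hw]))
      simp only [ite_mul, zero_mul]
      rw [← Finset.sum_filter, e, Finset.sum_pair hne, hF]
      ring
    · have h0 : weight a f = 0 :=
        le_antisymm (not_lt.1 hw) (Finset.sum_nonneg fun _ _ => abs_nonneg _)
      simp [h0]
  have hdisj : Pairwise (Function.onFun Disjoint U) := by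
    intro p q hpq
    refine Set.disjoint_left.2 fun x hx hx' => hpq (Subtype.ext ?_)
    rw [← hUg p x hx, hUg q x hx']
  have hfin : ∀ p, volume (U p) ≠ ∞ := fun p =>
    ne_top_of_le_ne_top (isCompact_zonot a 1).measure_lt_top.ne (measure_mono (hUsub p))
  have htot : ∑ p : normals a, vol (U p) = vol Z := by
    rw [Finset.sum_congr rfl fun p _ => hUv p,
      Finset.sum_coe_sort (normals a)
        (fun p => 2 ^ d / ((d + 1).factorial : ℝ) * ∑ f ∈ tuples a p, weight a f),
      ← Finset.mul_sum]
    have h := hcount (fun _ => 1) fun _ => rfl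
    simp only [mul_one] at h
    rw [h, ← hWdef, hW, pow_succ]
    have : ((d + 1).factorial : ℝ) ≠ 0 := by exact_mod_cast (d + 1).factorial_ne_zero
    field_simp
  have hmeas : ∀ p, MeasurableSet (U p) := fun p => (hUo p).measurableSet
  have hae : (⋃ p, U p) =ᵐ[volume] Z := by
    refine ae_eq_of_subset_of_measure_ge (iUnion_subset hUsub) ?_
      (MeasurableSet.iUnion hmeas).nullMeasurableSet (isCompact_zonot a 1).measure_lt_top.ne
    rw [measure_iUnion hdisj hmeas, tsum_fintype]
    refine le_of_eq ((ENNReal.toReal_eq_toReal_iff' (isCompact_zonot a 1).measure_lt_top.ne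
      (ENNReal.sum_ne_top.2 fun p _ => hfin p)).1 ?_)
    rw [ENNReal.toReal_sum fun p _ => hfin p]
    exact htot.symm
  set φ : (Fin (d + 1) → ℝ) → ℝ := fun y => Real.log (supp L y) with hφ
  have hint : ∫ x in Z, φ (gaugeGrad Z x) = ∑ p : normals a, vol (U p) * φ p := by
    rw [← setIntegral_congr_set hae, integral_iUnion_fintype hmeas hdisj fun p => ?_]
    · refine Finset.sum_congr rfl fun p _ => ?_
      rw [setIntegral_congr_fun (hmeas p) (g := fun _ => φ p) fun x hx => by
        rw [← hUg p x hx], setIntegral_const, smul_eq_mul]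
      rfl
    · exact (integrableOn_const (C := φ p) (hs := hfin p)).congr_fun
        (fun x hx => by rw [← hUg p x hx]) (hmeas p)
  have hsupp : ∀ y : Fin (d + 1) → ℝ, supp L (-y) = supp L y := fun y => by
    rw [supp, supp]
    congr 1
    ext r
    constructor <;> rintro ⟨x, hx, rfl⟩ <;> exact ⟨-x, hL.2.2.1 x hx, by simp⟩
  have hH : ∀ f, 0 < weight a f → supp L (nrm a f) = supDet a L f / weight a f := by
    intro f hf
    have hne : L.Nonempty := nonempty_of_measure_ne_zero (μ := volume) fun h => by
      simpa [vol, h] using hL.2.2.2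
    have hbd := bddAbove_supp hL.1 (nrm a f)
    have hdetbd : BddAbove ((fun x => |(Matrix.of (Fin.snoc (fun i => a (f i)) x)).det|) '' L) :=
      (hL.1.image (by fun_prop)).bddAbove
    have hd : ∀ x, ∑ k, nrm a f k * x k =
        (Matrix.of (Fin.snoc (fun i => a (f i)) x)).det / weight a f := fun x => dot_nrm a f x
    refine le_antisymm (csSup_le (hne.image _) ?_) ?_
    · rintro _ ⟨x, hx, rfl⟩
      dsimp only
      rw [hd]
      exact div_le_div_of_nonneg_right
        ((le_abs_self _).trans (le_csSup hdetbd (mem_image_of_mem _ hx))) hf.le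
    · rw [div_le_iff₀ hf]
      refine csSup_le (hne.image _) ?_
      rintro _ ⟨x, hx, rfl⟩
      dsimp only
      rw [← div_le_iff₀ hf]
      have e : |(Matrix.of (Fin.snoc (fun i => a (f i)) x)).det| / weight a f =
          |∑ k, nrm a f k * x k| := by rw [hd, abs_div, abs_of_pos hf]
      rw [e]
      refine abs_le'.2 ⟨le_csSup hbd (mem_image_of_mem _ hx), le_csSup hbd ⟨-x, hL.2.2.1 x hx, ?_⟩⟩
      simp
  show vol Z * _ = W * ∫ x in Z, φ (gaugeGrad Z x)
  rw [hint]
  simp only [hUv]
  rw [Finset.sum_coe_sort (normals a) (fun p =>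
      2 ^ d / ((d + 1).factorial : ℝ) * (∑ f ∈ tuples a p, weight a f) * φ p)]
  simp only [mul_assoc (2 ^ d / ((d + 1).factorial : ℝ)), ← Finset.mul_sum]
  rw [hcount φ (fun p => by simp only [hφ, hsupp])]
  have hterm : ∀ f, weight a f * φ (nrm a f) =
      weight a f * Real.log (supDet a L f / weight a f) := fun f => by
    rcases (Finset.sum_nonneg fun _ _ => abs_nonneg _ : 0 ≤ weight a f).eq_or_lt with h | h
    · rw [show weight a f = 0 from h.symm, zero_mul, zero_mul]
    · simp only [hφ, hH f h]
  rw [Finset.sum_congr rfl fun f _ => hterm f, hW, pow_succ]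
  have : ((d + 1).factorial : ℝ) ≠ 0 := by exact_mod_cast (d + 1).factorial_ne_zero
  field_simp

end Vale.Agent.P227.Zono
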