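import Vale.Agent.P227.Zono.Main
import Vale.Agent.P227.Zono.ChartExists
import Vale.Agent.P227.Zono.Posynomial
import Vale.Agent.P227.Zono.Power
import Vale.Agent.P227.Zono.Minkowski
import Vale.Agent.P227.Zono.ZonotopeCone

/-!
P227: the cone-volume form of the logarithmic Minkowski inequality at a zonotope.
-/

noncomputable section

namespace Vale.Agent.P227.Zono

open MeasureTheory Set Matrix

theorem zonot_coneLogMinkowski (d m : ℕ) (a : Fin m → Fin d → ℝ) (hV : 0 < vol (zonot a 1)) :
    ConeLogMinkowski (zonot a 1) := by
  intro L hL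
  cases d with
  | zero =>
    have h1 : ∀ S : Set (Fin 0 → ℝ), 0 < vol S → vol S = 1 := fun S hS => by
      have hne : S.Nonempty := nonempty_of_measure_ne_zero (μ := volume) fun h => by
        simp [vol, h] at hS
      rw [hne.eq_univ, vol, volume_pi, Measure.pi_of_empty, measure_univ, ENNReal.toReal_one]
    simp [h1 _ hV, h1 _ hL.2.2.2]
  | succ k =>
    have hP : PowerBound := powerBound (posynomial chartExists)
    set W := ∑ f : Fin k → Fin m, weight a f with hWdef
    have hW : 0 < W := by rw [hWdef, sum_weight chartExists hP]; positivity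
    have h1 := zonotopeLogMinkowski chartExists hP minkowskiZono k m a L hV hL
    have h2 := zonotopeCone k m a L hV hL
    rw [← hWdef] at h1 h2
    have h3 := mul_le_mul_of_nonneg_left h1 hV.le
    rw [mul_left_comm _ ((k : ℝ) + 1), h2] at h3
    push_cast
    refine le_of_mul_le_mul_left ?_ hW
    linarith

end Vale.Agent.P227.Zono
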