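import Vale.Agent.P227.Zono.Pins4

/-!
P227: the cone-volume form of the logarithmic Minkowski inequality passes from zonotopes to
zonoids.
-/

noncomputable section

namespace Vale.Agent.P227.Zono.ConeAux

open MeasureTheory Set Filter Topology
open scoped Pointwise

variable {d m : ℕ}

lemma continuous_pair :
    Continuous fun z : (Fin d → ℝ) × (Fin d → ℝ) => ∑ i, z.1 i * z.2 i := by fun_prop

lemma continuous_supp {L : Set (Fin d → ℝ)} (hL : IsCompact L) : Continuous (supp L) :=
  hL.continuous_sSup (f := fun y x : Fin d → ℝ => ∑ i, y i * x i) continuous_pair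

lemma le_supp {A : Set (Fin d → ℝ)} (hA : IsCompact A) (u : Fin d → ℝ) {x : Fin d → ℝ}
    (hx : x ∈ A) : ∑ i, u i * x i ≤ supp A u :=
  le_csSup (hA.image (continuous_pair.comp (Continuous.prodMk_right u))).bddAbove
    (mem_image_of_mem _ hx)

lemma supp_le {A : Set (Fin d → ℝ)} (hA : A.Nonempty) (u : Fin d → ℝ) {t : ℝ}
    (h : ∀ x ∈ A, ∑ i, u i * x i ≤ t) : supp A u ≤ t :=
  csSup_le (hA.image _) (forall_mem_image.2 h)

lemma sum_mul_smul (u x : Fin d → ℝ) (c : ℝ) :
    ∑ i, u i * (c • x) i = c * ∑ i, u i * x i := by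
  rw [Finset.mul_sum]
  exact Finset.sum_congr rfl fun i _ => by simp; ring

lemma body_mem_nhds {K : Set (Fin d → ℝ)} (hK : IsBody K) : K ∈ 𝓝 (0 : Fin d → ℝ) := by
  obtain ⟨-, hconv, hsym, hv⟩ := hK
  have hne : (interior K).Nonempty := by
    by_contra h
    rw [not_nonempty_iff_eq_empty] at h
    have h1 : K ⊆ frontier K := by
      rw [frontier, h, diff_empty]; exact subset_closure
    have := measure_mono_null h1 (hconv.addHaar_frontier volume)
    simp [vol, this] at hv
  obtain ⟨z, hz⟩ := hne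
  have hneg : -z ∈ interior K := by
    have h1 : IsOpen (-interior K) := isOpen_interior.neg
    have h2 : -interior K ⊆ K := fun y hy => by
      simpa using hsym _ (interior_subset hy)
    exact interior_maximal h2 h1 (by simpa using hz)
  have h0 := hconv.interior hz hneg (a := 1 / 2) (b := 1 / 2) (by norm_num) (by norm_num)
    (by norm_num)
  rw [smul_neg, add_neg_cancel] at h0
  exact mem_interior_iff_mem_nhds.1 h0

lemma body_scale {L K : Set (Fin d → ℝ)} (hL : L ∈ 𝓝 (0 : Fin d → ℝ)) (hK : IsCompact K) :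
    ∃ c > (0 : ℝ), ∀ x ∈ K, c • x ∈ L := by
  obtain ⟨r, hr, hsub⟩ := Metric.mem_nhds_iff.1 hL
  obtain ⟨R, hR⟩ := hK.isBounded.exists_norm_le
  refine ⟨r / (|R| + 1), by positivity, fun x hx => hsub ?_⟩
  rw [mem_ball_zero_iff, norm_smul, Real.norm_of_nonneg (by positivity), div_mul_eq_mul_div,
    div_lt_iff₀ (by positivity)]
  exact mul_lt_mul_of_pos_left (by linarith [hR x hx, le_abs_self R]) hr

lemma supp_pos {L : Set (Fin d → ℝ)} (hL : IsBody L) {u : Fin d → ℝ} (hu : u ≠ 0) :
    0 < supp L u := by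
  obtain ⟨c, hc, hsub⟩ := body_scale (body_mem_nhds hL) (isCompact_singleton (x := u))
  refine lt_of_lt_of_le ?_ (le_supp hL.1 u (hsub u rfl))
  rw [sum_mul_smul]
  refine mul_pos hc ((Finset.sum_nonneg fun i _ => mul_self_nonneg (u i)).lt_of_ne fun h => hu ?_)
  exact funext fun i => mul_self_eq_zero.1
    ((Finset.sum_eq_zero_iff_of_nonneg fun j _ => mul_self_nonneg (u j)).1 h.symm i
      (Finset.mem_univ i))

lemma supp_mono {A B : Set (Fin d → ℝ)} (hA : A.Nonempty) (hB : IsCompact B) {c : ℝ} (hc : 0 < c)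
    (h : ∀ x ∈ A, c • x ∈ B) (u : Fin d → ℝ) : c * supp A u ≤ supp B u := by
  rw [← le_div_iff₀' hc]
  refine supp_le hA u fun x hx => (le_div_iff₀' hc).2 ?_
  rw [← sum_mul_smul]
  exact le_supp hB u (h x hx)

lemma gauge_le_of_scale {A B : Set (Fin d → ℝ)} (hA : A ∈ 𝓝 (0 : Fin d → ℝ)) {c : ℝ}
    (hc : 0 < c) (h : ∀ x ∈ A, c • x ∈ B) (x : Fin d → ℝ) : gauge B x ≤ c⁻¹ * gauge A x := by
  have habs : Absorbent ℝ (c • A) := by
    refine absorbent_nhds_zero ?_
    simpa using smul_mem_nhds_smul₀ hc.ne' hA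
  refine (gauge_mono habs (smul_set_subset_iff.2 h) x).trans (le_of_eq ?_)
  rw [gauge_smul_left_of_nonneg hc.le]
  rfl

lemma vol_le_of_scale {A B : Set (Fin d → ℝ)} (hB : IsCompact B) {c : ℝ} (hc : 0 < c)
    (h : ∀ x ∈ A, c • x ∈ B) : c ^ d * vol A ≤ vol B := by
  have h1 := ENNReal.toReal_mono hB.measure_lt_top.ne
    (measure_mono (μ := volume) (smul_set_subset_iff.2 h))
  rwa [Measure.addHaar_smul_of_nonneg _ hc.le, Module.finrank_fin_fun, ENNReal.toReal_mul,
    ENNReal.toReal_ofReal (by positivity)] at h1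

lemma isBody_zonot {a : Fin m → Fin d → ℝ} (hv : 0 < vol (zonot a 1)) :
    IsBody (zonot a 1) := by
  refine ⟨?_, ?_, ?_, hv⟩
  · exact (isCompact_univ_pi fun _ => isCompact_Icc).image (by fun_prop)
  · rintro _ ⟨l, hl, rfl⟩ _ ⟨l', hl', rfl⟩ s t hs ht hst
    refine ⟨s • l + t • l', (convex_pi fun i _ => convex_Icc _ _) hl hl' hs ht hst, ?_⟩
    simp only [Pi.add_apply, Pi.smul_apply, smul_eq_mul, add_smul, mul_smul,
      Finset.sum_add_distrib, Finset.smul_sum]
  · rintro _ ⟨l, hl, rfl⟩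
    refine ⟨-l, fun i _ => ?_, by simp⟩
    have := hl i trivial
    simp only [mem_Icc, Pi.neg_apply] at this ⊢
    constructor <;> linarith [this.1, this.2]

lemma measurable_gaugeGrad (K : Set (Fin d → ℝ)) : Measurable (gaugeGrad K) :=
  measurable_pi_lambda _ fun i => measurable_fderiv_apply_const ℝ (gauge K) (Pi.single i 1)

end ConeAux

open MeasureTheory Set Filter Topology ConeAux in
/-- The zonotope case gives every zonoid. -/
theorem coneLimit : ConeLimit := by
  intro hG hA d K hd hK hZon L hL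
  obtain ⟨n, rfl⟩ := Nat.exists_eq_succ_of_ne_zero hd.ne'
  set ε : ℕ → ℝ := fun k => 1 / ((k : ℝ) + 1)
  have hε0 : ∀ k, 0 < ε k := fun k => by positivity
  have hε1 : ∀ k, ε k ≤ 1 := fun k => by
    rw [div_le_one (by positivity)]; linarith [k.cast_nonneg (α := ℝ)]
  have hεlim : Tendsto ε atTop (𝓝 0) := tendsto_one_div_add_atTop_nhds_zero_nat
  choose m a hin hout using fun k => hZon (ε k) (hε0 k)
  set Z : ℕ → Set (Fin (n + 1) → ℝ) := fun k => zonot (a k) 1
  set e : ℕ → ℝ := fun k => 1 + ε k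
  have he : ∀ k, 0 < e k := fun k => by linarith [hε0 k]
  have he2 : ∀ k, e k ≤ 2 := fun k => by linarith [hε1 k]
  have helim : Tendsto e atTop (𝓝 1) := by simpa using hεlim.const_add 1
  have hZc : ∀ k, IsCompact (Z k) := fun k =>
    (isCompact_univ_pi fun _ => isCompact_Icc).image (by fun_prop)
  have hvin : ∀ k, (e k)⁻¹ ^ (n + 1) * vol (Z k) ≤ vol K := fun k =>
    vol_le_of_scale hK.1 (inv_pos.2 (he k)) (hin k)
  have hvout : ∀ k, (e k)⁻¹ ^ (n + 1) * vol K ≤ vol (Z k) := fun k =>
    vol_le_of_scale (hZc k) (inv_pos.2 (he k)) (hout k)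
  have hVpos : ∀ k, 0 < vol (Z k) := fun k =>
    lt_of_lt_of_le (mul_pos (pow_pos (inv_pos.2 (he k)) _) hK.2.2.2) (hvout k)
  have hZ : ∀ k, IsBody (Z k) := fun k => isBody_zonot (hVpos k)
  have hK0 := body_mem_nhds hK
  have hKne : K.Nonempty := ⟨0, mem_of_mem_nhds hK0⟩
  have hZne : ∀ k, (Z k).Nonempty := fun k => ⟨0, mem_of_mem_nhds (body_mem_nhds (hZ k))⟩
  -- gauges
  have hgle : ∀ k x, gauge (Z k) x ≤ e k * gauge K x := fun k x => by
    simpa using gauge_le_of_scale hK0 (inv_pos.2 (he k)) (hout k) x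
  have hgge : ∀ k x, gauge K x ≤ e k * gauge (Z k) x := fun k x => by
    simpa using gauge_le_of_scale (body_mem_nhds (hZ k)) (inv_pos.2 (he k)) (hin k) x
  have hglim : ∀ x, Tendsto (fun k => gauge (Z k) x) atTop (𝓝 (gauge K x)) := fun x => by
    refine tendsto_of_tendsto_of_tendsto_of_le_of_le (g := fun k => (e k)⁻¹ * gauge K x)
      (h := fun k => e k * gauge K x) ?_ ?_ (fun k => ?_) (fun k => hgle k x)
    · simpa using (helim.inv₀ one_ne_zero).mul_const (gauge K x)
    · simpa using helim.mul_const (gauge K x)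
    · exact (inv_mul_le_iff₀ (he k)).2 (hgge k x)
  -- volumes
  have hVlim : Tendsto (fun k => vol (Z k)) atTop (𝓝 (vol K)) := by
    refine tendsto_of_tendsto_of_tendsto_of_le_of_le (g := fun k => (e k)⁻¹ ^ (n + 1) * vol K)
      (h := fun k => e k ^ (n + 1) * vol K) ?_ ?_ hvout (fun k => ?_)
    · simpa using ((helim.inv₀ one_ne_zero).pow (n + 1)).mul_const (vol K)
    · simpa using (helim.pow (n + 1)).mul_const (vol K)
    · have := hvin k
      rwa [inv_pow, inv_mul_le_iff₀ (pow_pos (he k) _)] at this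
  -- bounds on the integrands
  obtain ⟨c, hc, hcK⟩ := body_scale (body_mem_nhds hL) hK.1
  obtain ⟨C, hC, hCL⟩ := body_scale hK0 hL.1
  set F : ℕ → (Fin (n + 1) → ℝ) → ℝ := fun k x => Real.log (supp L (gaugeGrad (Z k) x))
  set M : ℝ := |Real.log (c / 2)| + |Real.log (2 / C)| with hM
  have hM0 : 0 ≤ M := by positivity
  have hae : ∀ᵐ x : Fin (n + 1) → ℝ, x ≠ 0 ∧ DifferentiableAt ℝ (gauge K) x ∧
      (∀ k, DifferentiableAt ℝ (gauge (Z k)) x) ∧ gauge K x ≠ 1 := by
    have hfr : ∀ᵐ x : Fin (n + 1) → ℝ, gauge K x ≠ 1 := by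
      rw [ae_iff]
      refine measure_mono_null (fun x hx => ?_) (hK.2.1.addHaar_frontier volume)
      exact (gauge_eq_one_iff_mem_frontier hK.2.1 hK0).1 (of_not_not hx)
    filter_upwards [(hG _ K hd hK).1, ae_all_iff.2 fun k => (hG _ (Z k) hd (hZ k)).1, hfr]
      with x h1 h2 h3
    exact ⟨h1.1, h1.2, fun k => (h2 k).2, h3⟩
  have hgrad : ∀ k x, x ≠ 0 → DifferentiableAt ℝ (gauge (Z k)) x →
      supp K (gaugeGrad (Z k) x) ≤ e k ∧ 1 / 2 ≤ supp K (gaugeGrad (Z k) x) := by
    intro k x hx hdx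
    have h1 := ((hG _ (Z k) hd (hZ k)).2 x hx hdx).2.1
    have hA := supp_mono hKne (hZc k) (inv_pos.2 (he k)) (hout k) (gaugeGrad (Z k) x)
    have hB := supp_mono (hZne k) hK.1 (inv_pos.2 (he k)) (hin k) (gaugeGrad (Z k) x)
    rw [h1] at hA hB
    rw [inv_mul_le_iff₀ (he k), mul_one] at hA
    refine ⟨hA, le_trans ?_ hB⟩
    rw [mul_one, one_div]
    exact (inv_le_inv₀ two_pos (he k)).2 (he2 k)
  have hFb : ∀ k x, x ≠ 0 → DifferentiableAt ℝ (gauge (Z k)) x → |F k x| ≤ M := by
    intro k x hx hdx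
    obtain ⟨hup, hlo⟩ := hgrad k x hx hdx
    set u := gaugeGrad (Z k) x with hu
    have l1 : c / 2 ≤ supp L u :=
      le_trans (by rw [← mul_one_div]; exact mul_le_mul_of_nonneg_left hlo hc.le)
        (supp_mono hKne hL.1 hc hcK u)
    have hLne : L.Nonempty := ⟨0, mem_of_mem_nhds (body_mem_nhds hL)⟩
    have l2 : supp L u ≤ 2 / C := by
      rw [le_div_iff₀' hC]
      exact (supp_mono hLne hK.1 hC hCL u).trans (hup.trans (he2 k))
    have h1 := Real.log_le_log (by positivity) l1
    have h2 := Real.log_le_log (lt_of_lt_of_le (by positivity) l1) l2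
    show |Real.log (supp L u)| ≤ M
    rw [abs_le]
    constructor <;> linarith [neg_abs_le (Real.log (c / 2)), le_abs_self (Real.log (2 / C)),
      abs_nonneg (Real.log (c / 2)), abs_nonneg (Real.log (2 / C))]
  -- gradients converge
  have hlim : ∀ x, x ≠ 0 → DifferentiableAt ℝ (gauge K) x →
      (∀ k, DifferentiableAt ℝ (gauge (Z k)) x) →
      Tendsto (fun k => gaugeGrad (Z k) x) atTop (𝓝 (gaugeGrad K x)) := by
    intro x hx hdx hdk
    obtain ⟨r, hr, hball⟩ := Metric.nhds_basis_closedBall.mem_iff.1 hK0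
    have hbd : ∀ k, ‖gaugeGrad (Z k) x‖ ≤ 2 / r := fun k => by
      rw [pi_norm_le_iff_of_nonneg (by positivity)]
      intro i
      set u := gaugeGrad (Z k) x
      have hmem : ∀ s : ℝ, |s| ≤ r → Pi.single i s ∈ K := fun s hs => hball (by
        rw [mem_closedBall_zero_iff, Pi.norm_single, Real.norm_eq_abs]; exact hs)
      have hval : ∀ s : ℝ, |s| ≤ r → u i * s ≤ 2 := fun s hs => by
        refine le_trans ?_ ((hgrad k x hx (hdk k)).1.trans (he2 k))
        simpa [Pi.single_apply] using le_supp hK.1 u (hmem s hs)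
      rw [Real.norm_eq_abs, le_div_iff₀ hr, ← abs_of_pos hr, ← abs_mul, abs_le]
      constructor
      · linarith [hval (-r) (by rw [abs_neg, abs_of_pos hr])]
      · exact hval r (abs_of_pos hr).le
    refine tendsto_of_subseq_tendsto fun ns hns => ?_
    obtain ⟨u, -, φ, hφ, hu⟩ := (isCompact_closedBall (0 : Fin (n + 1) → ℝ) (2 / r)).tendsto_subseq
      (x := fun j => gaugeGrad (Z (ns j)) x) fun j => mem_closedBall_zero_iff.2 (hbd _)
    have hns' : Tendsto (fun j => ns (φ j)) atTop atTop := hns.comp hφ.tendsto_atTop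
    refine ⟨φ, ?_⟩
    suffices u = gaugeGrad K x by rw [← this]; exact hu
    refine ((hG _ K hd hK).2 x hx hdx).2.2 u ?_ ?_
    · refine tendsto_nhds_unique
        (((continuous_pair.comp (continuous_id.prodMk continuous_const)).tendsto u).comp hu) ?_
      refine ((hglim x).comp hns').congr fun j => ?_
      exact ((hG _ (Z _) hd (hZ _)).2 x hx (hdk _)).1.symm
    · refine supp_le hKne u fun y hy => ?_
      refine le_of_tendsto_of_tendsto
        (((continuous_pair.comp (continuous_id.prodMk continuous_const)).tendsto u).comp hu)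
        (helim.comp hns') (Eventually.of_forall fun j => ?_)
      exact (le_supp hK.1 _ hy).trans (hgrad _ x hx (hdk _)).1
  -- dominated convergence
  obtain ⟨R, hR⟩ := hK.1.isBounded.exists_norm_le
  have hZR : ∀ k, Z k ⊆ Metric.closedBall 0 (2 * |R|) := fun k y hy => by
    have := hR _ (hin k y hy)
    rw [norm_smul, norm_inv, Real.norm_of_nonneg (he k).le, inv_mul_le_iff₀ (he k)] at this
    rw [mem_closedBall_zero_iff]
    exact this.trans (mul_le_mul (he2 k) (le_abs_self R)
      ((norm_nonneg _).trans (hR 0 (mem_of_mem_nhds hK0))) zero_le_two)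
  have hint : Tendsto (fun k => ∫ x in Z k, F k x) atTop
      (𝓝 (∫ x in K, Real.log (supp L (gaugeGrad K x)))) := by
    simp_rw [← integral_indicator (hZc _).measurableSet, ← integral_indicator hK.1.measurableSet]
    refine tendsto_integral_of_dominated_convergence
      ((Metric.closedBall (0 : Fin (n + 1) → ℝ) (2 * |R|)).indicator fun _ => M) (fun k => ?_)
      ?_ (fun k => ?_) ?_
    · exact ((Real.measurable_log.comp ((continuous_supp hL.1).measurable.comp
        (measurable_gaugeGrad _))).indicator (hZc k).measurableSet).aestronglyMeasurable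
    · exact (integrable_indicator_iff measurableSet_closedBall).2
        (integrableOn_const (isCompact_closedBall _ _).measure_lt_top.ne)
    · filter_upwards [hae] with x hx
      by_cases hxz : x ∈ Z k
      · rw [indicator_of_mem hxz, indicator_of_mem (hZR k hxz), Real.norm_eq_abs]
        exact hFb k x hx.1 (hx.2.2.1 k)
      · rw [indicator_of_notMem hxz, norm_zero]
        exact indicator_nonneg (fun _ _ => hM0) x
    · filter_upwards [hae] with x hx
      obtain ⟨hx0, hdx, hdk, hg1⟩ := hx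
      have hu := hlim x hx0 hdx hdk
      have hune : gaugeGrad K x ≠ 0 := fun h0 => by
        have h := ((hG _ K hd hK).2 x hx0 hdx).2.1
        rw [h0] at h
        simp [supp, image_congr fun (y : Fin (n + 1) → ℝ) (_ : y ∈ K) =>
          (show ∑ i, (0 : Fin (n + 1) → ℝ) i * y i = (0 : ℝ) by simp), hKne] at h
      have hF : Tendsto (fun k => F k x) atTop (𝓝 (Real.log (supp L (gaugeGrad K x)))) :=
        (((continuous_supp hL.1).tendsto _).comp hu).log (supp_pos hL hune).ne'
      have hmem : ∀ A : Set (Fin (n + 1) → ℝ), IsBody A → (x ∈ A ↔ gauge A x ≤ 1) := fun A hA => by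
        rw [gauge_le_one_iff_mem_closure hA.2.1 (body_mem_nhds hA), hA.1.isClosed.closure_eq]
      rcases hg1.lt_or_gt with hlt | hgt
      · rw [indicator_of_mem ((hmem K hK).2 hlt.le)]
        refine hF.congr' ?_
        filter_upwards [(hglim x).eventually (gt_mem_nhds hlt)] with k hk
        rw [indicator_of_mem ((hmem _ (hZ k)).2 hk.le)]
      · rw [indicator_of_notMem fun h => hgt.not_ge ((hmem K hK).1 h)]
        refine tendsto_const_nhds.congr' ?_
        filter_upwards [(hglim x).eventually (lt_mem_nhds hgt)] with k hk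
        rw [indicator_of_notMem fun h => hk.not_ge ((hmem _ (hZ k)).1 h)]
  have hLv : 0 < vol L := hL.2.2.2
  refine le_of_tendsto_of_tendsto'
    (hVlim.mul (((tendsto_const_nhds (x := vol L)).div hVlim hK.2.2.2.ne').log
      (div_pos hLv hK.2.2.2).ne'))
    (hint.const_mul ((n + 1 : ℕ) : ℝ)) fun k => ?_
  exact hA n (m k) (a k) (hVpos k) L hL

end Vale.Agent.P227.Zono
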