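import Vale.Agent.P227.Zono.Pins4
import Vale.Agent.P227.Zono.Touching

/-!
P227: the pair inequality whenever the logarithmic combination is a zonoid, from the logarithmic
Minkowski inequality with the cone volume.
-/

noncomputable section

namespace Vale.Agent.P227.Zono

open MeasureTheory Set Matrix
open scoped Topology

variable {d : ℕ}

namespace PairAux

lemma supp_zero (K : Set (Fin d → ℝ)) : supp K 0 = 0 := by
  rcases K.eq_empty_or_nonempty with h | h
  · simp [supp, h]
  · simp [supp, h.image_const]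

lemma supp_neg {K : Set (Fin d → ℝ)} (hK : IsBody K) (y : Fin d → ℝ) :
    supp K (-y) = supp K y := by
  have : (fun x => ∑ i, (-y) i * x i) '' K = (fun x => ∑ i, y i * x i) '' K := by
    ext r
    constructor <;> rintro ⟨x, hx, rfl⟩ <;>
      exact ⟨-x, hK.2.2.1 x hx, by simp⟩
  rw [supp, supp, this]

lemma exists_lower (hd : 0 < d) {K : Set (Fin d → ℝ)} (hK : IsBody K) :
    ∃ c : ℝ, 0 < c ∧ ∀ y, c * ‖y‖ ≤ supp K y := by
  have : Nonempty (Fin d) := ⟨⟨0, hd⟩⟩
  obtain ⟨y₁, hy₁, hmin⟩ := (isCompact_sphere (0 : Fin d → ℝ) 1).exists_isMinOn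
    (NormedSpace.sphere_nonempty.2 zero_le_one) (continuous_supp hK.1).continuousOn
  refine ⟨supp K y₁, supp_pos hK (ne_zero_of_mem_unit_sphere ⟨y₁, hy₁⟩), fun y => ?_⟩
  rcases eq_or_ne y 0 with rfl | hy
  · simp [supp_zero]
  · have hn : 0 < ‖y‖ := norm_pos_iff.2 hy
    have h : supp K y₁ ≤ supp K (‖y‖⁻¹ • y) :=
      hmin (by simp [norm_smul, inv_mul_cancel₀ hn.ne'])
    rw [supp_smul (by positivity), le_inv_mul_iff₀ hn] at h
    linarith

lemma dot_le (y x : Fin d → ℝ) : ∑ i, y i * x i ≤ ‖y‖ * ((d : ℝ) * ‖x‖) := by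
  calc ∑ i, y i * x i ≤ ∑ _i : Fin d, ‖y‖ * ‖x‖ := Finset.sum_le_sum fun i _ => by
        refine (le_abs_self _).trans ?_
        rw [abs_mul]
        exact mul_le_mul (norm_le_pi_norm y i) (norm_le_pi_norm x i) (abs_nonneg _) (norm_nonneg _)
    _ = _ := by simp; ring

end PairAux

open PairAux

theorem conePair : ConePair := by
  intro hG hZ d K L t hd hK hL ht0 ht1 hzon
  set M := logComb K L t with hM
  set F : (Fin d → ℝ) → ℝ := fun y => supp K y ^ (1 - t) * supp L y ^ t with hF
  have hcF : Continuous F := by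
    simp only [hF]
    refine ((continuous_supp hK.1).rpow_const fun y => Or.inr ?_).mul
      ((continuous_supp hL.1).rpow_const fun y => Or.inr ?_) <;> linarith
  have hFpos : ∀ y, y ≠ 0 → 0 < F y := fun y hy =>
    mul_pos (Real.rpow_pos_of_pos (supp_pos hK hy) _) (Real.rpow_pos_of_pos (supp_pos hL hy) _)
  -- a positive lower bound
  obtain ⟨c, hc, hFlow⟩ : ∃ c : ℝ, 0 < c ∧ ∀ y, c * ‖y‖ ≤ F y := by
    obtain ⟨cK, hcK, hKl⟩ := exists_lower hd hK
    obtain ⟨cL, hcL, hLl⟩ := exists_lower hd hL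
    refine ⟨min cK cL, lt_min hcK hcL, fun y => ?_⟩
    have h0 : 0 ≤ min cK cL * ‖y‖ := mul_nonneg (lt_min hcK hcL).le (norm_nonneg _)
    have h1 : min cK cL * ‖y‖ ≤ supp K y :=
      (mul_le_mul_of_nonneg_right (min_le_left _ _) (norm_nonneg _)).trans (hKl y)
    have h2 : min cK cL * ‖y‖ ≤ supp L y :=
      (mul_le_mul_of_nonneg_right (min_le_right _ _) (norm_nonneg _)).trans (hLl y)
    calc min cK cL * ‖y‖ = (min cK cL * ‖y‖) ^ (1 - t) * (min cK cL * ‖y‖) ^ t := by
          rw [← Real.rpow_add' h0 (by norm_num)]; simp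
      _ ≤ _ := mul_le_mul (Real.rpow_le_rpow h0 h1 (by linarith)) (Real.rpow_le_rpow h0 h2 ht0)
          (Real.rpow_nonneg h0 _) (Real.rpow_nonneg (h0.trans h1) _)
  -- the combination is a body
  have hconv : Convex ℝ M := by
    intro x hx z hz a b ha hb hab y
    have e : ∑ i, y i * (a • x + b • z) i = a * ∑ i, y i * x i + b * ∑ i, y i * z i := by
      simp [mul_add, Finset.sum_add_distrib, Finset.mul_sum, mul_left_comm]
    rw [e]
    calc a * ∑ i, y i * x i + b * ∑ i, y i * z i ≤ a * F y + b * F y :=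
          add_le_add (mul_le_mul_of_nonneg_left (hx y) ha) (mul_le_mul_of_nonneg_left (hz y) hb)
      _ = F y := by rw [← add_mul, hab, one_mul]
  have hclosed : IsClosed M := by
    have : M = ⋂ y : Fin d → ℝ, {x | ∑ i, y i * x i ≤ F y} := by
      ext x; simp [hM, logComb, hF]
    rw [this]
    exact isClosed_iInter fun y => isClosed_le (by fun_prop) continuous_const
  have hcomp : IsCompact M := by
    refine (isCompact_univ_pi fun i => isCompact_Icc
      (a := -F (Pi.single i (-1))) (b := F (Pi.single i 1))).of_isClosed_subset hclosed ?_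
    intro x hx i _
    have h1 : (∑ j, (Pi.single i (1 : ℝ) : Fin d → ℝ) j * x j) ≤ F (Pi.single i 1) := hx _
    have h2 : (∑ j, (Pi.single i (-1 : ℝ) : Fin d → ℝ) j * x j) ≤ F (Pi.single i (-1)) := hx _
    simp [Pi.single_apply, ite_mul] at h1 h2
    exact ⟨by linarith, h1⟩
  have hsym : ∀ x ∈ M, -x ∈ M := by
    intro x hx y
    have h : ∑ i, (-y) i * x i ≤ F (-y) := hx (-y)
    simp only [hF, supp_neg hK, supp_neg hL] at h
    simpa using h
  have hdR : (0 : ℝ) < d := by exact_mod_cast hd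
  have hball : Metric.ball (0 : Fin d → ℝ) (c / d) ⊆ M := by
    intro x hx y
    rw [mem_ball_zero_iff, lt_div_iff₀ hdR] at hx
    refine (dot_le y x).trans (le_trans ?_ (hFlow y))
    rw [mul_comm c]
    exact mul_le_mul_of_nonneg_left (by linarith) (norm_nonneg _)
  have hnhds : M ∈ 𝓝 (0 : Fin d → ℝ) :=
    Filter.mem_of_superset (Metric.ball_mem_nhds _ (by positivity)) hball
  have hbody : IsBody M := by
    refine ⟨hcomp, hconv, hsym, ENNReal.toReal_pos (ne_of_gt ?_) hcomp.measure_lt_top.ne⟩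
    exact Measure.measure_pos_of_nonempty_interior _ ⟨0, mem_interior_iff_mem_nhds.2 hnhds⟩
  obtain ⟨hae, hfacts⟩ := hG d M hd hbody
  -- at almost every point the mean is one at the gradient
  have habs : Absorbent ℝ M := absorbent_nhds_zero hnhds
  have hvb : Bornology.IsVonNBounded ℝ M :=
    NormedSpace.isVonNBounded_of_isBounded _ hcomp.isBounded
  have hkey : ∀ x : Fin d → ℝ, x ≠ 0 → DifferentiableAt ℝ (gauge M) x →
      gaugeGrad M x ≠ 0 ∧ F (gaugeGrad M x) = 1 := by
    intro x hx hdiff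
    obtain ⟨-, -, huniq⟩ := hfacts x hx hdiff
    set s := gauge M x with hs
    have hs0 : 0 < s := (gauge_pos habs hvb).2 hx
    set z := s⁻¹ • x with hz
    have hgz : gauge M z = 1 := by
      rw [hz, gauge_smul_of_nonneg (by positivity), smul_eq_mul, inv_mul_cancel₀ hs0.ne']
    have hzf := (gauge_eq_one_iff_mem_frontier hconv hnhds).1 hgz
    rw [hclosed.frontier_eq] at hzf
    obtain ⟨y, hy0, hy⟩ : ∃ y, y ≠ 0 ∧ ∑ i, y i * z i = F y := by
      by_contra hcon
      push Not at hcon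
      have : Nonempty (Fin d) := ⟨⟨0, hd⟩⟩
      obtain ⟨y₁, hy₁, hmin⟩ := (isCompact_sphere (0 : Fin d → ℝ) 1).exists_isMinOn
        (NormedSpace.sphere_nonempty.2 zero_le_one) (f := fun y => F y - ∑ i, y i * z i)
        (by fun_prop)
      have hδ : 0 < F y₁ - ∑ i, y₁ i * z i :=
        sub_pos.2 (lt_of_le_of_ne (hzf.1 y₁) (hcon y₁ (ne_zero_of_mem_unit_sphere ⟨y₁, hy₁⟩)))
      refine hzf.2 (mem_interior_iff_mem_nhds.2 (Filter.mem_of_superset
        (Metric.ball_mem_nhds z (div_pos hδ hdR)) fun w hw y => ?_))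
      rw [Metric.mem_ball, dist_eq_norm, lt_div_iff₀ hdR] at hw
      rcases eq_or_ne y 0 with rfl | hy
      · have : F (0 : Fin d → ℝ) ≥ 0 := le_trans (by simp) (hFlow 0)
        simpa using this
      have hn : 0 < ‖y‖ := norm_pos_iff.2 hy
      have hm : F y₁ - ∑ i, y₁ i * z i ≤
          F (‖y‖⁻¹ • y) - ∑ i, (‖y‖⁻¹ • y) i * z i :=
        hmin (by simp [norm_smul, inv_mul_cancel₀ hn.ne'])
      have e : F (‖y‖⁻¹ • y) = ‖y‖⁻¹ * F y := mean_smul hK hL (by positivity) hy
      rw [e] at hm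
      simp only [Pi.smul_apply, smul_eq_mul, mul_assoc, ← Finset.mul_sum, ← mul_sub] at hm
      rw [le_inv_mul_iff₀ hn] at hm
      have h1 := dot_le y (w - z)
      simp only [Pi.sub_apply, mul_sub, Finset.sum_sub_distrib] at h1
      have h2 : ‖y‖ * ((d : ℝ) * ‖w - z‖) ≤ ‖y‖ * (F y₁ - ∑ i, y₁ i * z i) :=
        mul_le_mul_of_nonneg_left (by linarith) hn.le
      change ∑ i, y i * w i ≤ F y
      linarith
    have hFy := hFpos y hy0
    have hy' : (F y)⁻¹ • y ≠ 0 := smul_ne_zero (inv_ne_zero hFy.ne') hy0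
    have hF' : F ((F y)⁻¹ • y) = 1 := by
      rw [show F ((F y)⁻¹ • y) = (F y)⁻¹ * F y from mean_smul hK hL (inv_pos.2 hFy) hy0,
        inv_mul_cancel₀ hFy.ne']
    have h1 : ∑ i, ((F y)⁻¹ • y) i * x i = s := by
      have hzx : ∑ i, y i * z i = s⁻¹ * ∑ i, y i * x i := by
        simp [hz, Finset.mul_sum, mul_left_comm]
      rw [hzx, inv_mul_eq_iff_eq_mul₀ hs0.ne'] at hy
      simp only [Pi.smul_apply, smul_eq_mul, mul_assoc, ← Finset.mul_sum, hy]
      field_simp
    have h2 : supp M ((F y)⁻¹ • y) ≤ 1 :=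
      csSup_le (Set.Nonempty.image _ ⟨0, mem_of_mem_nhds hnhds⟩) (by
        rintro _ ⟨w, hw, rfl⟩
        exact hF' ▸ hw ((F y)⁻¹ • y))
    rw [← huniq _ h1 h2]
    exact ⟨hy', hF'⟩
  have haeM : ∀ᵐ x ∂volume.restrict M, x ≠ 0 ∧ DifferentiableAt ℝ (gauge M) x :=
    ae_restrict_of_ae hae
  have hsum : ∀ᵐ x ∂volume.restrict M,
      (1 - t) * Real.log (supp K (gaugeGrad M x)) + t * Real.log (supp L (gaugeGrad M x)) = 0 := by
    filter_upwards [haeM] with x hx
    obtain ⟨hg, h1⟩ := hkey x hx.1 hx.2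
    have := congrArg Real.log h1
    rwa [Real.log_one, hF, Real.log_mul (Real.rpow_pos_of_pos (supp_pos hK hg) _).ne'
      (Real.rpow_pos_of_pos (supp_pos hL hg) _).ne', Real.log_rpow (supp_pos hK hg),
      Real.log_rpow (supp_pos hL hg)] at this
  have hint : ∀ A : Set (Fin d → ℝ), IsBody A →
      IntegrableOn (fun x => Real.log (supp A (gaugeGrad M x))) M := by
    intro A hA
    obtain ⟨cM, hcM, hMl⟩ := exists_lower hd hbody
    set S : Set (Fin d → ℝ) := {y | supp M y = 1} with hS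
    have hSne : ∀ y ∈ S, y ≠ 0 := fun y hy h => by simp [hS, h, supp_zero] at hy
    have hSc : IsCompact S := by
      refine (isCompact_closedBall (0 : Fin d → ℝ) cM⁻¹).of_isClosed_subset
        (isClosed_eq (continuous_supp hcomp) continuous_const) fun y hy => ?_
      rw [mem_closedBall_zero_iff, ← one_div, le_div_iff₀ hcM]
      have : supp M y = 1 := hy
      linarith [hMl y]
    obtain ⟨B, hB⟩ := hSc.exists_bound_of_continuousOn (f := fun y => Real.log (supp A y))
      ((continuous_supp hA.1).continuousOn.log fun y hy => (supp_pos hA (hSne y hy)).ne')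
    have hmeas : Measurable fun x => Real.log (supp A (gaugeGrad M x)) :=
      Real.measurable_log.comp ((continuous_supp hA.1).measurable.comp
        (measurable_pi_lambda _ fun i => measurable_fderiv_apply_const ℝ (gauge M) _))
    refine Measure.integrableOn_of_bounded hcomp.measure_lt_top.ne hmeas.aestronglyMeasurable ?_
      (M := B)
    filter_upwards [haeM] with x hx
    exact hB _ (hfacts x hx.1 hx.2).2.1
  have hkK := hZ d M hd hbody hzon K hK
  have hkL := hZ d M hd hbody hzon L hL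
  have hI : (1 - t) * (∫ x in M, Real.log (supp K (gaugeGrad M x))) +
      t * (∫ x in M, Real.log (supp L (gaugeGrad M x))) = 0 := by
    rw [← integral_const_mul, ← integral_const_mul,
      ← integral_add ((hint K hK).const_mul _) ((hint L hL).const_mul _)]
    exact integral_eq_zero_of_ae hsum
  have hV : 0 < vol M := hbody.2.2.2
  have hKv : 0 < vol K := hK.2.2.2
  have hLv : 0 < vol L := hL.2.2.2
  rw [Real.log_div hKv.ne' hV.ne'] at hkK
  rw [Real.log_div hLv.ne' hV.ne'] at hkL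
  have h1 := mul_le_mul_of_nonneg_left hkK (sub_nonneg.2 ht1)
  have h2 := mul_le_mul_of_nonneg_left hkL ht0
  have hI' : (d : ℝ) * ((1 - t) * (∫ x in M, Real.log (supp K (gaugeGrad M x))) +
      t * (∫ x in M, Real.log (supp L (gaugeGrad M x)))) = 0 := by rw [hI, mul_zero]
  have h3 : vol M * ((1 - t) * Real.log (vol K) + t * Real.log (vol L) - Real.log (vol M)) ≤ 0 := by
    linarith
  have h4 : (1 - t) * Real.log (vol K) + t * Real.log (vol L) ≤ Real.log (vol M) := by
    by_contra h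
    push Not at h
    nlinarith
  have hpos : 0 < vol K ^ (1 - t) * vol L ^ t :=
    mul_pos (Real.rpow_pos_of_pos hKv _) (Real.rpow_pos_of_pos hLv _)
  rw [← Real.log_le_log_iff hpos hV, Real.log_mul (Real.rpow_pos_of_pos hKv _).ne'
    (Real.rpow_pos_of_pos hLv _).ne', Real.log_rpow hKv, Real.log_rpow hLv]
  exact h4

end Vale.Agent.P227.Zono
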