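import Vale.Agent.P227.Zono.Pins3

/-!
P227: for an atomic generating measure the zonoid inequality is the zonotope inequality.
-/

noncomputable section

namespace Vale.Agent.P227.Zono

open MeasureTheory Set Matrix
open scoped Pointwise

variable {d m : ℕ}

/-- The atomic measure with weights `c` at the points `v`. -/
private def atomic (c : Fin m → ℝ) (v : Fin m → Fin d → ℝ) : Measure (Fin d → ℝ) :=
  ∑ j, ENNReal.ofReal (c j) • Measure.dirac (v j)

private lemma integral_atoms {α ι : Type*} [MeasurableSpace α] [MeasurableSingletonClass α]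
    [Fintype ι] (w : ι → ℝ) (hw : ∀ j, 0 ≤ w j) (x : ι → α) (g : α → ℝ) :
    ∫ y, g y ∂(∑ j, ENNReal.ofReal (w j) • Measure.dirac (x j)) = ∑ j, w j * g (x j) := by
  rw [integral_finsetSum_measure fun j _ =>
    (integrable_dirac enorm_lt_top).smul_measure ENNReal.ofReal_ne_top]
  exact Finset.sum_congr rfl fun j _ => by
    rw [integral_smul_measure, integral_dirac, ENNReal.toReal_ofReal (hw j), smul_eq_mul]

private instance isFinite_atomic (c : Fin m → ℝ) (v : Fin m → Fin d → ℝ) :
    IsFiniteMeasure (atomic c v) := by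
  refine ⟨?_⟩
  simp only [atomic, Measure.coe_finsetSum, Finset.sum_apply, Measure.smul_apply,
    measure_univ, smul_eq_mul, mul_one]
  exact ENNReal.sum_lt_top.2 fun j _ => ENNReal.ofReal_lt_top

private lemma pi_atomic (k : ℕ) (c : Fin m → ℝ) (hc : ∀ j, 0 ≤ c j) (v : Fin m → Fin d → ℝ) :
    Measure.pi (fun _ : Fin k => atomic c v) =
      ∑ f : Fin k → Fin m,
        ENNReal.ofReal (∏ i, c (f i)) • Measure.dirac (fun i => v (f i)) := by
  refine Measure.pi_eq fun s hs => ?_
  have hbox : MeasurableSet (Set.univ.pi s) := MeasurableSet.univ_pi hs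
  simp only [Measure.coe_finsetSum, Finset.sum_apply, Measure.smul_apply, smul_eq_mul, atomic,
    Measure.dirac_apply' _ hbox, Measure.dirac_apply' _ (hs _)]
  rw [Fintype.prod_sum]
  refine Finset.sum_congr rfl fun f _ => ?_
  rw [ENNReal.ofReal_prod_of_nonneg fun i _ => hc _, Finset.prod_mul_distrib]
  congr 1
  by_cases h : (fun i => v (f i)) ∈ Set.univ.pi s
  · rw [Set.indicator_of_mem h, Finset.prod_eq_one fun i _ => ?_]
    · simp
    · rw [Set.indicator_of_mem (h i (Set.mem_univ i))]; simp
  · rw [Set.indicator_of_notMem h]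
    simp only [Set.mem_univ_pi, not_forall] at h
    obtain ⟨i, hi⟩ := h
    exact (Finset.prod_eq_zero (Finset.mem_univ i) (Set.indicator_of_notMem hi _)).symm

private lemma zonoid_atomic (c : Fin m → ℝ) (hc : ∀ j, 0 ≤ c j) (v : Fin m → Fin d → ℝ) :
    zonoid (atomic c v) = zonot (fun j => c j • v j) 1 := by
  have hh : ∀ y : Fin d → ℝ, ∫ w, |∑ i, y i * w i| ∂atomic c v =
      ∑ j, |∑ i, y i * (c j • v j) i| := fun y => by
    rw [atomic, integral_atoms c hc v fun w => |∑ i, y i * w i|]
    refine Finset.sum_congr rfl fun j _ => ?_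
    rw [← abs_of_nonneg (hc j), ← abs_mul, abs_of_nonneg (hc j), Finset.mul_sum]
    simp [mul_left_comm]
  have hdot : ∀ (y : Fin d → ℝ) (l : Fin m → ℝ),
      ∑ i, y i * (∑ j, l j • c j • v j) i = ∑ j, l j * ∑ i, y i * (c j • v j) i := fun y l => by
    simp only [Finset.sum_apply, Pi.smul_apply, smul_eq_mul, Finset.mul_sum]
    rw [Finset.sum_comm]
    exact Finset.sum_congr rfl fun j _ => Finset.sum_congr rfl fun i _ => by ring
  refine Set.Subset.antisymm (fun x hx => ?_) ?_
  · by_contra hn
    have hconv : Convex ℝ (zonot (fun j => c j • v j) 1) := by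
      have e : zonot (fun j => c j • v j) 1 = (Fintype.linearCombination ℝ fun j => c j • v j) ''
          Set.univ.pi fun i => Icc (-(1 : Fin m → ℝ) i) ((1 : Fin m → ℝ) i) := by
        exact Set.image_congr' fun l => by simp [Fintype.linearCombination_apply]
      rw [e]
      exact (convex_pi fun i _ => convex_Icc _ _).linear_image _
    have hclosed : IsClosed (zonot (fun j => c j • v j) 1) :=
      ((isCompact_univ_pi fun _ => isCompact_Icc).image
        (continuous_finsetSum _ fun i _ =>
          (continuous_apply i).smul continuous_const)).isClosed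
    obtain ⟨φ, r, hlt, hr⟩ := geometric_hahn_banach_closed_point hconv hclosed hn
    set y : Fin d → ℝ := fun i => φ fun l => if i = l then 1 else 0 with hy
    have hφ : ∀ z : Fin d → ℝ, φ z = ∑ i, y i * z i := fun z => by
      conv_lhs => rw [pi_eq_sum_univ z]
      simp [hy, mul_comm]
    set l : Fin m → ℝ := fun j => if 0 ≤ ∑ i, y i * (c j • v j) i then 1 else -1 with hl
    have hmem : (∑ j, l j • c j • v j) ∈ zonot (fun j => c j • v j) 1 := by
      refine ⟨l, fun j _ => ?_, rfl⟩
      simp only [hl, Pi.one_apply, Set.mem_Icc]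
      split_ifs <;> norm_num
    have h1 := hlt _ hmem
    rw [hφ, hdot] at h1
    have h2 := hx y
    rw [hh] at h2
    rw [hφ] at hr
    have h3 : ∑ j, l j * ∑ i, y i * (c j • v j) i = ∑ j, |∑ i, y i * (c j • v j) i| := by
      refine Finset.sum_congr rfl fun j _ => ?_
      simp only [hl]
      split_ifs with h
      · rw [one_mul, abs_of_nonneg h]
      · rw [abs_of_neg (not_le.1 h)]; ring
    linarith
  · rintro _ ⟨l, hl, rfl⟩ y
    rw [hh, hdot]
    refine Finset.sum_le_sum fun j _ => ?_
    refine (le_abs_self _).trans ?_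
    rw [abs_mul]
    refine mul_le_of_le_one_left (abs_nonneg _) (abs_le.2 ?_)
    simpa using hl j (Set.mem_univ j)

private lemma abs_det_smul_snoc (c : Fin d → ℝ) (hc : ∀ i, 0 ≤ c i) (e : ℝ) (he : 0 ≤ e)
    (v : Fin d → Fin (d + 1) → ℝ) (x : Fin (d + 1) → ℝ) :
    |(Matrix.of (Fin.snoc (fun i => c i • v i) (e • x))).det| =
      (∏ i, c i) * e * |(Matrix.of (Fin.snoc v x)).det| := by
  have h : (Matrix.of (Fin.snoc (fun i => c i • v i) (e • x))) =
      Matrix.of fun r k =>
        (Fin.snoc (α := fun _ => ℝ) c e) r * (Matrix.of (Fin.snoc v x)) r k := by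
    ext r k
    refine Fin.lastCases ?_ (fun i => ?_) r <;> simp
  rw [h, Matrix.det_mul_column, abs_mul, Fin.prod_univ_castSucc]
  simp only [Fin.snoc_castSucc, Fin.snoc_last]
  rw [abs_of_nonneg (mul_nonneg (Finset.prod_nonneg fun i _ => hc i) he)]

/-- The atomic case of the zonoid inequality. -/
theorem atomicBridge : AtomicBridge := by
  intro H d m c v hc hpos L hL
  set a : Fin m → Fin (d + 1) → ℝ := fun j => c j • v j with ha
  have hz : zonoid (atomic c v) = zonot a 1 := zonoid_atomic c hc v
  change 0 < vol (zonoid (atomic c v)) at hpos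
  change LogMinkowskiAt (atomic c v) L
  rw [hz] at hpos
  have key := H d m a L hpos hL
  have hP : ∀ f : Fin d → Fin m, 0 ≤ ∏ i, c (f i) := fun f => Finset.prod_nonneg fun i _ => hc _
  have hw : ∀ f : Fin d → Fin m,
      weight a f = (∏ i, c (f i)) * mweight (atomic c v) fun i => v (f i) := fun f => by
    rw [weight, mweight, atomic,
      integral_atoms c hc v fun w => |(Matrix.of (Fin.snoc (fun i => v (f i)) w)).det|,
      Finset.mul_sum]
    refine Finset.sum_congr rfl fun j _ => ?_
    rw [ha, abs_det_smul_snoc _ (fun i => hc (f i)) _ (hc j), mul_assoc]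
  have hs : ∀ f : Fin d → Fin m,
      supDet a L f = (∏ i, c (f i)) * msupDet L fun i => v (f i) := fun f => by
    rw [supDet, msupDet, ← smul_eq_mul, ← Real.sSup_smul_of_nonneg (hP f),
      ← Set.image_smul, Set.image_image]
    congr 1
    refine Set.image_congr' fun x => ?_
    have := abs_det_smul_snoc (fun i => c (f i)) (fun i => hc (f i)) 1 zero_le_one
      (fun i => v (f i)) x
    simpa [ha] using this
  have hint : ∀ g : (Fin d → Fin (d + 1) → ℝ) → ℝ,
      ∫ f, g f ∂(Measure.pi fun _ : Fin d => atomic c v) =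
        ∑ f : Fin d → Fin m, (∏ i, c (f i)) * g fun i => v (f i) := fun g => by
    rw [pi_atomic d c hc v]
    exact integral_atoms (fun f : Fin d → Fin m => ∏ i, c (f i)) hP (fun f i => v (f i)) g
  rw [LogMinkowskiAt, hint, hint, hz]
  convert key using 2
  · exact Finset.sum_congr rfl fun f _ => (hw f).symm
  · refine Finset.sum_congr rfl fun f _ => ?_
    rw [hw f, hs f]
    rcases (hP f).eq_or_lt with h0 | h0
    · rw [← h0]; ring
    · rw [mul_div_mul_left _ _ h0.ne', mul_assoc]

end Vale.Agent.P227.Zono
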