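import Vale.Agent.P227.Zono.Pins4
import Vale.Agent.P227.Zono.Touching

/-!
P227: the gauge of a body is differentiable at almost every point (Rademacher), and where it is,
its gradient is the unique functional of support one which norms the point.
-/

noncomputable section

namespace Vale.Agent.P227.Zono

open MeasureTheory Set Matrix
open scoped Topology

variable {d : ℕ}

namespace GaugeAux

lemma mem_nhds_zero {K : Set (Fin d → ℝ)} (hK : IsBody K) : K ∈ 𝓝 (0 : Fin d → ℝ) := by
  obtain ⟨z, hz⟩ := interior_nonempty hK.1 hK.2.1 hK.2.2.2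
  have h := hK.2.1.combo_interior_self_mem_interior hz (hK.2.2.1 z (interior_subset hz))
    (show (0 : ℝ) < 1 / 2 by norm_num) (show (0 : ℝ) ≤ 1 / 2 by norm_num) (by norm_num)
  rw [smul_neg, add_neg_cancel] at h
  exact mem_interior_iff_mem_nhds.1 h

lemma fderiv_apply_eq (K : Set (Fin d → ℝ)) (x v : Fin d → ℝ) :
    fderiv ℝ (gauge K) x v = ∑ i, gaugeGrad K x i * v i := by
  conv_lhs => rw [pi_eq_sum_univ' v]
  simp only [map_sum, map_smul, smul_eq_mul, gaugeGrad]
  exact Finset.sum_congr rfl fun i _ => mul_comm _ _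

end GaugeAux

open GaugeAux in
theorem gaugeFacts : GaugeFacts := by
  intro d K hd hK
  have hc := hK.2.1
  have h0 := mem_nhds_zero hK
  have habs : Absorbent ℝ K := absorbent_nhds_zero h0
  have hb : Bornology.IsVonNBounded ℝ K := hK.1.isVonNBounded ℝ
  refine ⟨?_, ?_⟩
  · obtain ⟨C, hC⟩ := hc.lipschitz_gauge h0
    have : Nonempty (Fin d) := ⟨⟨0, hd⟩⟩
    filter_upwards [hC.ae_differentiableAt (μ := volume), volume.ae_ne 0] with x hx hne
    exact ⟨hne, hx⟩
  intro x hx hdiff
  have hpos : 0 < gauge K x := (gauge_pos habs hb).2 hx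
  set D := fderiv ℝ (gauge K) x with hD
  have hF : HasFDerivAt (gauge K) D x := hdiff.hasFDerivAt
  have euler : D x = gauge K x := by
    have h1 : HasDerivAt (fun t : ℝ => t • x) x 1 := by
      simpa using (hasDerivAt_id (1 : ℝ)).smul_const x
    have h2 : HasDerivAt (gauge K ∘ fun t : ℝ => t • x) (D x) 1 :=
      HasFDerivAt.comp_hasDerivAt (1 : ℝ) (by simpa using hF) h1
    have h3 : HasDerivAt (fun t : ℝ => t * gauge K x) (gauge K x) 1 := by
      simpa using (hasDerivAt_id (1 : ℝ)).mul_const (gauge K x)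
    refine h2.unique (h3.congr_of_eventuallyEq ?_)
    filter_upwards [lt_mem_nhds (show (0 : ℝ) < 1 by norm_num)] with t ht
    simp only [Function.comp_apply]
    rw [gauge_smul_of_nonneg ht.le, smul_eq_mul]
  have euler' : ∑ i, gaugeGrad K x i * x i = gauge K x := by rw [← fderiv_apply_eq]; exact euler
  have sub : ∀ y : Fin d → ℝ, D y ≤ gauge K y := by
    intro y
    by_contra hy
    push Not at hy
    have hline : HasDerivAt (fun s : ℝ => gauge K (x + s • y)) (D y) 0 := by
      have h1 : HasDerivAt (fun s : ℝ => x + s • y) y 0 := by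
        simpa using ((hasDerivAt_id (0 : ℝ)).smul_const y).const_add x
      exact HasFDerivAt.comp_hasDerivAt (0 : ℝ) (by simpa using hF) h1
    have ht := hline.tendsto_slope_zero_right
    have hev := ht.eventually (lt_mem_nhds hy)
    obtain ⟨s, hs1, hs2⟩ := (hev.and self_mem_nhdsWithin).exists
    have hs : 0 < s := hs2
    simp only [zero_add, zero_smul, add_zero, smul_eq_mul] at hs1
    have h := gauge_add_le hc habs x (s • y)
    rw [gauge_smul_of_nonneg hs.le, smul_eq_mul] at h
    have : s⁻¹ * (gauge K (x + s • y) - gauge K x) ≤ gauge K y := by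
      rw [inv_mul_le_iff₀ hs]; linarith
    linarith
  refine ⟨euler', ?_, ?_⟩
  · have hne : K.Nonempty := ⟨0, mem_of_mem_nhds h0⟩
    apply le_antisymm
    · refine csSup_le (hne.image _) ?_
      rintro _ ⟨y, hy, rfl⟩
      simp only [← fderiv_apply_eq]
      exact (sub y).trans (gauge_le_one_of_mem hy)
    · have hmem : (gauge K x)⁻¹ • x ∈ K := by
        have h : gauge K ((gauge K x)⁻¹ • x) ≤ 1 := by
          rw [gauge_smul_of_nonneg (inv_nonneg.2 hpos.le), smul_eq_mul, inv_mul_cancel₀ hpos.ne']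
        have h' := (gauge_le_one_iff_mem_closure hc h0).1 h
        rwa [hK.1.isClosed.closure_eq] at h'
      refine le_csSup (bddAbove_supp hK.1 _) ⟨_, hmem, ?_⟩
      simp only [← fderiv_apply_eq, map_smul, ← hD, euler, smul_eq_mul,
        inv_mul_cancel₀ hpos.ne']
  intro y hy hsupp
  have hdom : ∀ v : Fin d → ℝ, ∑ i, y i * v i ≤ gauge K v := by
    intro v
    rcases eq_or_ne v 0 with rfl | hv
    · simp
    have hvp : 0 < gauge K v := (gauge_pos habs hb).2 hv
    have hmem : (gauge K v)⁻¹ • v ∈ K := by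
      have h : gauge K ((gauge K v)⁻¹ • v) ≤ 1 := by
        rw [gauge_smul_of_nonneg (inv_nonneg.2 hvp.le), smul_eq_mul, inv_mul_cancel₀ hvp.ne']
      have h' := (gauge_le_one_iff_mem_closure hc h0).1 h
      rwa [hK.1.isClosed.closure_eq] at h'
    have h1 : ∑ i, y i * ((gauge K v)⁻¹ • v) i ≤ 1 :=
      le_trans (le_csSup (bddAbove_supp hK.1 y)
        (mem_image_of_mem (fun z => ∑ i, y i * z i) hmem)) hsupp
    have e : ∑ i, y i * ((gauge K v)⁻¹ • v) i = (gauge K v)⁻¹ * ∑ i, y i * v i := by
      rw [Finset.mul_sum]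
      exact Finset.sum_congr rfl fun i _ => by simp [mul_left_comm]
    rw [e] at h1
    rwa [inv_mul_le_iff₀ hvp, mul_one] at h1
  set Y : (Fin d → ℝ) →L[ℝ] ℝ := ∑ i, y i • ContinuousLinearMap.proj i with hY
  have hYa : ∀ v, Y v = ∑ i, y i * v i := by intro v; simp [hY]
  have hmin : IsLocalMin (fun v => gauge K v - Y v) x := by
    refine Filter.Eventually.of_forall fun v => ?_
    simp only [hYa, hy, sub_self]
    linarith [hdom v]
  have hzero := hmin.hasFDerivAt_eq_zero (hF.sub Y.hasFDerivAt)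
  funext i
  have hi := congrArg (fun T : (Fin d → ℝ) →L[ℝ] ℝ => T (Pi.single i 1)) hzero
  simp only [_root_.sub_apply, _root_.zero_apply,
    sub_eq_zero, hYa] at hi
  rw [gaugeGrad, ← hD, hi]
  simp [Pi.single_apply]

end Vale.Agent.P227.Zono
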