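import Vale.Agent.P227.Zono.Pins

/-!
P227: the induction on the dimension for the logarithmic Minkowski inequality at zonotopes.
-/

noncomputable section

namespace Vale.Agent.P227.Zono

open MeasureTheory Set Matrix

variable {d m : ℕ}

lemma convex_zonot (a : Fin m → Fin d → ℝ) (t : Fin m → ℝ) : Convex ℝ (zonot a t) := by
  have e : zonot a t = (Fintype.linearCombination ℝ a) '' univ.pi fun i => Icc (-t i) (t i) := by
    exact Set.image_congr' fun l => by simp [Fintype.linearCombination_apply]
  rw [e]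
  exact (convex_pi fun i _ => convex_Icc _ _).linear_image _

lemma isCompact_zonot (a : Fin m → Fin d → ℝ) (t : Fin m → ℝ) : IsCompact (zonot a t) :=
  (isCompact_univ_pi fun _ => isCompact_Icc).image
    (continuous_finsetSum _ fun i _ => (continuous_apply i).smul continuous_const)

lemma map_zonot {k : ℕ} (p : (Fin d → ℝ) →ₗ[ℝ] Fin k → ℝ) (a : Fin m → Fin d → ℝ)
    (t : Fin m → ℝ) : p '' zonot a t = zonot (fun j => p (a j)) t := by
  simp only [zonot, Set.image_image, map_sum, map_smul]

lemma interior_nonempty {K : Set (Fin d → ℝ)} (hK : IsCompact K) (hc : Convex ℝ K)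
    (hv : 0 < vol K) : (interior K).Nonempty := by
  by_contra h
  rw [Set.not_nonempty_iff_eq_empty] at h
  have : volume K = 0 := by
    refine measure_mono_null ?_ (hc.addHaar_frontier (μ := volume))
    rw [hK.isClosed.frontier_eq, h, Set.sdiff_empty]
  simp [vol, this] at hv

lemma vol_image_pos {k : ℕ} {K : Set (Fin d → ℝ)} (hK : IsCompact K) (hc : Convex ℝ K)
    (hv : 0 < vol K) {p : (Fin d → ℝ) →ₗ[ℝ] Fin k → ℝ} (hp : Function.Surjective p) :
    0 < vol (p '' K) := by
  have hpc : Continuous p := p.continuous_of_finiteDimensional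
  have ho : IsOpen (p '' interior K) :=
    p.isOpenMap_of_finiteDimensional hp _ isOpen_interior
  have h1 : 0 < volume (p '' K) :=
    (ho.measure_pos volume ((interior_nonempty hK hc hv).image _)).trans_le
      (measure_mono (Set.image_mono interior_subset))
  exact ENNReal.toReal_pos h1.ne' (hK.image hpc).measure_lt_top.ne

lemma IsBody.map {k : ℕ} {L : Set (Fin d → ℝ)} (hL : IsBody L)
    {p : (Fin d → ℝ) →ₗ[ℝ] Fin k → ℝ} (hp : Function.Surjective p) : IsBody (p '' L) :=
  ⟨hL.1.image p.continuous_of_finiteDimensional, hL.2.1.linear_image p,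
    by rintro _ ⟨x, hx, rfl⟩; exact ⟨-x, hL.2.2.1 x hx, map_neg p x⟩,
    vol_image_pos hL.1 hL.2.1 hL.2.2.2 hp⟩

lemma exists_charts (hC : ChartExists) (a : Fin m → Fin (d + 1) → ℝ) :
    ∃ p α, Charts a p α := by
  have h : ∀ i, ∃ (p : (Fin (d + 1) → ℝ) →ₗ[ℝ] Fin d → ℝ) (α : ℝ),
      (a i = 0 ∧ α = 0) ∨ IsChart (a i) p α := fun i => by
    by_cases h : a i = 0
    · exact ⟨0, 0, Or.inl ⟨h, rfl⟩⟩
    · obtain ⟨p, α, hp⟩ := hC d (a i) h
      exact ⟨p, α, Or.inr hp⟩
  choose p α h using h
  exact ⟨p, α, h⟩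

lemma det_cons {a : Fin m → Fin (d + 2) → ℝ} {p : Fin m → (Fin (d + 2) → ℝ) →ₗ[ℝ] Fin (d + 1) → ℝ}
    {α : Fin m → ℝ} (hc : Charts a p α) (i : Fin m) (g : Fin d → Fin m) (y : Fin (d + 2) → ℝ) :
    |(Matrix.of (Fin.snoc (fun k => a ((Fin.cons i g : Fin (d + 1) → Fin m) k)) y)).det| =
      α i * |(Matrix.of (Fin.snoc (fun k => p i (a (g k))) (p i y))).det| := by
  have e : (Fin.snoc (fun k => a ((Fin.cons i g : Fin (d + 1) → Fin m) k)) y
      : Fin (d + 2) → Fin (d + 2) → ℝ) = Fin.cons (a i) (Fin.snoc (fun k => a (g k)) y) := by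
    rw [Fin.cons_snoc_eq_snoc_cons]
    congr 1
    funext k
    refine Fin.cases ?_ (fun l => ?_) k <;> simp
  rw [e]
  rcases hc i with ⟨h0, hα⟩ | h
  · rw [hα, zero_mul, abs_eq_zero]
    exact Matrix.det_eq_zero_of_row_eq_zero 0 fun j => by simp [h0]
  · rw [h.2.2.2.2]
    congr 4
    funext k
    refine Fin.lastCases ?_ (fun l => ?_) k <;> simp

lemma weight_cons {a : Fin m → Fin (d + 2) → ℝ}
    {p : Fin m → (Fin (d + 2) → ℝ) →ₗ[ℝ] Fin (d + 1) → ℝ}
    {α : Fin m → ℝ} (hc : Charts a p α) (i : Fin m) (g : Fin d → Fin m) :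
    weight a (Fin.cons i g : Fin (d + 1) → Fin m) = α i * weight (fun j => p i (a j)) g := by
  simp only [weight, Finset.mul_sum]
  exact Finset.sum_congr rfl fun j _ => det_cons hc i g _

lemma supDet_cons {a : Fin m → Fin (d + 2) → ℝ}
    {p : Fin m → (Fin (d + 2) → ℝ) →ₗ[ℝ] Fin (d + 1) → ℝ}
    {α : Fin m → ℝ} (hc : Charts a p α) {i : Fin m} (hi : 0 ≤ α i) (L : Set (Fin (d + 2) → ℝ))
    (g : Fin d → Fin m) :
    supDet a L (Fin.cons i g : Fin (d + 1) → Fin m) =
      α i * supDet (fun j => p i (a j)) (p i '' L) g := by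
  have h := Real.sSup_smul_of_nonneg hi
    ((fun y => |(Matrix.of (Fin.snoc (fun k => p i (a (g k))) y)).det|) '' (p i '' L))
  simp only [supDet]
  rw [smul_eq_mul] at h
  rw [← h, ← Set.image_smul, Set.image_image, Set.image_image]
  refine congrArg sSup (Set.image_congr' fun x => ?_)
  simpa using det_cons hc i g x

/-- The normalisation of the weights. -/
lemma sum_weight (hC : ChartExists) (hP : PowerBound) : ∀ (d m : ℕ) (a : Fin m → Fin (d + 1) → ℝ),
    ∑ f : Fin d → Fin m, weight a f = ((d + 1).factorial : ℝ) / 2 ^ (d + 1) * vol (zonot a 1) := by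
  intro d
  induction d with
  | zero =>
    intro m a
    obtain ⟨p, α, hc⟩ := exists_charts hC a
    have hid := (hP 0 m a p α hc).1
    have hone : ∀ i, vol (p i '' zonot a 1) = 1 := fun i => by
      have hne : (p i '' zonot a 1).Nonempty :=
        ⟨0, 0, ⟨0, fun j _ => ⟨by simp, by simp⟩, by simp⟩, map_zero _⟩
      rw [hne.eq_univ, vol, volume_pi, Measure.pi_of_empty, measure_univ, ENNReal.toReal_one]
    have hα : ∀ i, α i = |a i 0| := fun i => by
      rcases hc i with ⟨h0, hα⟩ | h
      · simp [hα, h0]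
      · have h1 := h.2.2.2.2 (fun k => Fin.elim0 k)
        simp at h1
        exact h1.symm
    rw [Fintype.sum_unique, weight]
    simp only [hone, hα, Nat.cast_zero, zero_add, one_mul, mul_one] at hid
    rw [hid, ← Finset.mul_sum]
    simp [Fin.snoc]
  | succ d ih =>
    intro m a
    obtain ⟨p, α, hc⟩ := exists_charts hC a
    have hid := (hP (d + 1) m a p α hc).1
    rw [← (Fin.consEquiv fun _ : Fin (d + 1) => Fin m).sum_comp, Fintype.sum_prod_type]
    have hi : ∀ i, ∑ g : Fin d → Fin m, weight a (Fin.cons i g : Fin (d + 1) → Fin m) =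
        α i * (((d + 1).factorial : ℝ) / 2 ^ (d + 1) * vol (p i '' zonot a 1)) := fun i => by
      simp only [weight_cons hc, ← Finset.mul_sum, ih, map_zonot]
    refine (Finset.sum_congr rfl fun i _ => hi i).trans ?_
    have e : ∑ i, α i * (((d + 1).factorial : ℝ) / 2 ^ (d + 1) * vol (p i '' zonot a 1)) =
        ((d + 1).factorial : ℝ) / 2 ^ (d + 2) * ∑ i, 2 * α i * vol (p i '' zonot a 1) := by
      rw [Finset.mul_sum]
      refine Finset.sum_congr rfl fun i _ => ?_
      rw [pow_succ _ (d + 1)]
      field_simp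
    rw [e, ← hid, Nat.factorial_succ (d + 1)]
    push_cast
    ring

/-- The logarithmic Minkowski inequality of a zonotope against every symmetric convex body. -/
theorem zonotopeLogMinkowski (hC : ChartExists) (hP : PowerBound) (hM : MinkowskiZono) :
    ZonotopeLogMinkowski := by
  intro d
  induction d with
  | zero =>
    intro m a L hV hL
    set f : Fin 0 → Fin m := fun k => k.elim0
    have hW := sum_weight hC hP 0 m a
    simp only [Fintype.sum_unique, Subsingleton.elim (default : Fin 0 → Fin m) f] at hW ⊢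
    norm_num at hW
    have hdet : ∀ x : Fin 1 → ℝ,
        |(Matrix.of (Fin.snoc (fun k => a (f k)) x)).det| = |x 0| := fun x => by
      rw [Matrix.det_fin_one]; simp [Fin.snoc]
    set H := supDet a L f with hH
    have hle : ∀ x ∈ L, |x 0| ≤ H := fun x hx => by
      rw [hH, supDet]
      simp only [hdet]
      exact le_csSup (hL.1.image (continuous_apply 0).abs).bddAbove ⟨x, hx, rfl⟩
    have hne : L.Nonempty := nonempty_of_measure_ne_zero (μ := volume) fun h => by
      simpa [vol, h] using hL.2.2.2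
    have hH0 : 0 ≤ H := (abs_nonneg _).trans (hle _ hne.some_mem)
    have hbox : vol L ≤ 2 * H := by
      have h1 : vol L ≤ (volume (Icc (fun _ : Fin 1 => -H) fun _ => H)).toReal := by
        refine ENNReal.toReal_mono isCompact_Icc.measure_lt_top.ne (measure_mono fun x hx => ?_)
        have := abs_le.1 (hle x hx)
        exact ⟨fun k => by rw [Subsingleton.elim k 0]; exact this.1,
          fun k => by rw [Subsingleton.elim k 0]; exact this.2⟩
      refine h1.trans_eq ?_
      rw [Real.volume_Icc_pi]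
      simp only [Finset.prod_const, Finset.card_univ, Fintype.card_fin, pow_one]
      rw [ENNReal.toReal_ofReal (by linarith)]
      ring
    have hlog : Real.log (vol L / vol (zonot a 1)) ≤ Real.log (H / weight a f) := by
      refine Real.log_le_log (div_pos hL.2.2.2 hV) ?_
      rw [hW, div_le_div_iff₀ hV (by linarith)]
      nlinarith
    have hw0 : 0 ≤ weight a f := by rw [hW]; linarith
    simpa using mul_le_mul_of_nonneg_left hlog hw0
  | succ d ih =>
    intro m a L hV hL
    obtain ⟨p, α, hc⟩ := exists_charts hC a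
    set V := vol (zonot a 1) with hVdef
    set Z' : Fin m → ℝ := fun i => vol (p i '' zonot a 1) with hZ'
    set L' : Fin m → ℝ := fun i => vol (p i '' L) with hL'
    have hpos : ∀ i, α i ≠ 0 → 0 < α i ∧ 0 < Z' i ∧ 0 < L' i := fun i hi => by
      rcases hc i with ⟨-, h0⟩ | h
      · exact absurd h0 hi
      · exact ⟨h.1, vol_image_pos (isCompact_zonot a 1) (convex_zonot a 1) hV h.2.2.1,
          vol_image_pos hL.1 hL.2.1 hL.2.2.2 h.2.2.1⟩
    set t : Fin m → ℝ := fun i => if α i = 0 then 1 else Z' i / L' i with ht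
    have ht0 : ∀ i, 0 < t i := fun i => by
      by_cases hi : α i = 0
      · simp [ht, hi]
      · simpa [ht, hi] using div_pos (hpos i hi).2.1 (hpos i hi).2.2
    obtain ⟨hid, hpow⟩ := hP (d + 1) m a p α hc
    have hmink := hM (d + 1) m a p α hc L t hL ht0
    have hsum : ∑ i, t i * (2 * α i * L' i) = (((d + 1 : ℕ) : ℝ) + 1) * V := by
      rw [hid]
      refine Finset.sum_congr rfl fun i _ => ?_
      by_cases hi : α i = 0
      · simp [hi]
      · have := (hpos i hi).2.2.ne'
        simp only [ht, hi, if_false, hZ', hL'] at this ⊢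
        field_simp
    rw [hsum, mul_div_cancel_left₀ V (by positivity)] at hmink
    have hpow' := hpow hV t ht0
    set X := ∑ i, 2 * α i * Z' i * Real.log (t i) with hX
    have hmain : ((d : ℝ) + 1) * (V * Real.log (vol L / V)) ≤ -X := by
      have h1 : Real.exp (X / V) * vol L ^ (d + 1) ≤ V ^ (d + 1) := by
        refine le_of_mul_le_mul_left ?_ hV
        calc V * (Real.exp (X / V) * vol L ^ (d + 1))
            = V * Real.exp (X / V) * vol L ^ (d + 1) := by ring
          _ ≤ vol (zonot a t) * vol L ^ (d + 1) :=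
              mul_le_mul_of_nonneg_right hpow' (pow_nonneg hL.2.2.2.le _)
          _ ≤ V * V ^ (d + 1) := by rw [← pow_succ']; exact hmink
      have h2 := Real.log_le_log (mul_pos (Real.exp_pos _) (pow_pos hL.2.2.2 _)) h1
      rw [Real.log_mul (Real.exp_ne_zero _) (pow_ne_zero _ hL.2.2.2.ne'), Real.log_exp,
        Real.log_pow, Real.log_pow] at h2
      rw [Real.log_div hL.2.2.2.ne' hV.ne']
      push_cast at h2
      have h3 : X / V * V = X := div_mul_cancel₀ X hV.ne'
      nlinarith [mul_le_mul_of_nonneg_right h2 hV.le]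
    set G : (Fin (d + 1) → Fin m) → ℝ :=
      fun f => weight a f * Real.log (supDet a L f / weight a f) with hG
    set F := ((d + 1).factorial : ℝ) / 2 ^ (d + 1) with hF
    have hi : ∀ i, F * (α i * Z' i * Real.log (L' i / Z' i)) ≤
        ((d : ℝ) + 1) * ∑ g : Fin d → Fin m, G (Fin.cons i g) := fun i => by
      by_cases hi : α i = 0
      · simp [hG, weight_cons hc, hi]
      obtain ⟨hα, hz, -⟩ := hpos i hi
      have hsurj : Function.Surjective (p i) := by
        rcases hc i with ⟨-, h0⟩ | h
        · exact absurd h0 hi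
        · exact h.2.2.1
      have hV' : 0 < vol (zonot (fun j => p i (a j)) 1) := by rw [← map_zonot]; exact hz
      have h := ih m (fun j => p i (a j)) (p i '' L) hV' (hL.map hsurj)
      rw [sum_weight hC hP, ← map_zonot] at h
      have hg : ∀ g : Fin d → Fin m, G (Fin.cons i g) = α i *
          (weight (fun j => p i (a j)) g * Real.log (supDet (fun j => p i (a j)) (p i '' L) g /
            weight (fun j => p i (a j)) g)) := fun g => by
        simp only [hG, weight_cons hc, supDet_cons hc hα.le, mul_div_mul_left _ _ hi, mul_assoc]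
      simp only [hg, ← Finset.mul_sum]
      have h4 := mul_le_mul_of_nonneg_left h hα.le
      simp only [hF, hZ', hL'] at h4 ⊢
      linarith
    have hlog : ∀ i, α i * Z' i * Real.log (L' i / Z' i) = -(α i * Z' i * Real.log (t i)) := by
      intro i
      by_cases hi : α i = 0
      · simp [hi]
      · simp only [ht, hi, if_false]
        rw [← mul_neg, ← Real.log_inv, inv_div]
    have hsumi := Finset.sum_le_sum fun i (_ : i ∈ Finset.univ) => hi i
    simp only [hlog, mul_neg, Finset.sum_neg_distrib, ← Finset.mul_sum] at hsumi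
    have hX2 : X = 2 * ∑ i, α i * Z' i * Real.log (t i) := by
      rw [hX, Finset.mul_sum]; exact Finset.sum_congr rfl fun i _ => by ring
    have hsplit : ∑ f, G f = ∑ i, ∑ g : Fin d → Fin m, G (Fin.cons i g) := by
      rw [← (Fin.consEquiv fun _ : Fin (d + 1) => Fin m).sum_comp, Fintype.sum_prod_type]
      rfl
    rw [← hsplit] at hsumi
    rw [sum_weight hC hP (d + 1) m a]
    change _ ≤ (((d + 1 : ℕ) : ℝ) + 1) * ∑ f, G f
    have hF0 : 0 ≤ F := by positivity
    have hfac : ((d + 1 + 1).factorial : ℝ) / 2 ^ (d + 1 + 1) = F * ((d : ℝ) + 2) / 2 := by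
      rw [hF, Nat.factorial_succ (d + 1)]
      push_cast
      field_simp
      ring
    rw [hfac]
    push_cast
    have h5 : F * (V * Real.log (vol L / V)) / 2 ≤ ∑ f, G f := by
      refine le_of_mul_le_mul_left ?_ (show (0 : ℝ) < (d : ℝ) + 1 by positivity)
      have h6 := mul_le_mul_of_nonneg_left hmain hF0
      rw [hX2] at h6
      linarith
    nlinarith [mul_le_mul_of_nonneg_left h5 (show (0 : ℝ) ≤ (d : ℝ) + 2 by positivity)]

end Vale.Agent.P227.Zono
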