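import Vale.Agent.P227.Zono.Main
import Vale.Agent.P227.Zono.Pins2

/-!
P227: the pair inequality when the logarithmic combination is a zonotope, from the logarithmic
Minkowski inequality.
-/

noncomputable section

namespace Vale.Agent.P227.Zono

open MeasureTheory Set Matrix

lemma weight_nonneg {d m : ℕ} (a : Fin m → Fin (d + 1) → ℝ) (f : Fin d → Fin m) :
    0 ≤ weight a f :=
  Finset.sum_nonneg fun _ _ => abs_nonneg _

theorem pairZonotope (hC : ChartExists) (hP : PowerBound) (hM : MinkowskiZono) (hT : Touching) :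
    PairZonotope := by
  intro d m a K L t hK hL ht0 ht1 hV heq
  rw [heq]
  set V := vol (zonot a 1) with hVdef
  have hW : 0 < ∑ f : Fin d → Fin m, weight a f := by
    rw [sum_weight hC hP]
    positivity
  have hk := zonotopeLogMinkowski hC hP hM d m a K hV hK
  have hl := zonotopeLogMinkowski hC hP hM d m a L hV hL
  have hzero : ∀ f : Fin d → Fin m,
      (1 - t) * (weight a f * Real.log (supDet a K f / weight a f)) +
        t * (weight a f * Real.log (supDet a L f / weight a f)) = 0 := by
    intro f
    rcases (weight_nonneg a f).eq_or_lt with h | h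
    · simp [← h]
    obtain ⟨hk', hl', he⟩ := hT d m a K L t hK hL ht0 ht1 hV heq f h
    have := congrArg Real.log he
    rw [Real.log_mul (Real.rpow_pos_of_pos hk' _).ne' (Real.rpow_pos_of_pos hl' _).ne',
      Real.log_rpow hk', Real.log_rpow hl'] at this
    rw [Real.log_div hk'.ne' h.ne', Real.log_div hl'.ne' h.ne']
    linear_combination weight a f * this
  have hsum : (1 - t) * ∑ f : Fin d → Fin m, weight a f * Real.log (supDet a K f / weight a f) +
      t * ∑ f : Fin d → Fin m, weight a f * Real.log (supDet a L f / weight a f) = 0 := by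
    rw [Finset.mul_sum, Finset.mul_sum, ← Finset.sum_add_distrib]
    exact Finset.sum_eq_zero fun f _ => hzero f
  rw [← hVdef] at hk hl
  have h1 := add_le_add (mul_le_mul_of_nonneg_left hk (sub_nonneg.2 ht1))
    (mul_le_mul_of_nonneg_left hl ht0)
  have h2 : (∑ f : Fin d → Fin m, weight a f) *
      ((1 - t) * Real.log (vol K / V) + t * Real.log (vol L / V)) ≤ 0 := by
    nlinarith
  have h3 : (1 - t) * Real.log (vol K / V) + t * Real.log (vol L / V) ≤ 0 := by
    by_contra h
    nlinarith [mul_pos hW (not_le.1 h)]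
  rw [Real.log_div hK.2.2.2.ne' hV.ne', Real.log_div hL.2.2.2.ne' hV.ne'] at h3
  have h4 : Real.log (vol K ^ (1 - t) * vol L ^ t) ≤ Real.log V := by
    rw [Real.log_mul (Real.rpow_pos_of_pos hK.2.2.2 _).ne' (Real.rpow_pos_of_pos hL.2.2.2 _).ne',
      Real.log_rpow hK.2.2.2, Real.log_rpow hL.2.2.2]
    linarith
  exact (Real.log_le_log_iff (mul_pos (Real.rpow_pos_of_pos hK.2.2.2 _)
    (Real.rpow_pos_of_pos hL.2.2.2 _)) hV).1 h4

end Vale.Agent.P227.Zono
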