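import Mathlib

/-!
P227: the logarithmic Minkowski inequality for zonotopes against all symmetric convex bodies.
Definitions and the statements exchanged between the blocks of the proof.

Proof: for a zonotope `Z = ∑ [-a_i, a_i]` and a body `L`, Minkowski's first inequality for `L` and
`Z(t) = ∑ t_i [-a_i, a_i]` with `t_i = |shadow_i Z| / |shadow_i L|`, together with the convexity of
`log |Z(exp s)|`, bounds `log (|L| / |Z|)` by a weighted mean of the same quantity for the shadows,
so induction on the dimension finishes.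
-/

noncomputable section

namespace Vale.Agent.P227.Zono

open MeasureTheory Set Matrix

variable {d m : ℕ}

/-- The zonotope with half generators `t_i a_i`. -/
def zonot (a : Fin m → Fin d → ℝ) (t : Fin m → ℝ) : Set (Fin d → ℝ) :=
  (fun l : Fin m → ℝ => ∑ i, l i • a i) '' univ.pi fun i => Icc (-t i) (t i)

/-- Lebesgue volume, as a real number. -/
def vol (K : Set (Fin d → ℝ)) : ℝ := (volume K).toReal

/-- A symmetric convex body. -/
def IsBody (K : Set (Fin d → ℝ)) : Prop :=
  IsCompact K ∧ Convex ℝ K ∧ (∀ x ∈ K, -x ∈ K) ∧ 0 < vol K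

/-- The sweep of `K` by a segment of half length `s a`. -/
def grow (a : Fin d → ℝ) (s : ℝ) (K : Set (Fin d → ℝ)) : Set (Fin d → ℝ) :=
  (fun z : (Fin d → ℝ) × ℝ => z.1 + z.2 • a) '' K ×ˢ Icc (-s) s

/-- A shadow map along `a`: the kernel is the line of `a`, and `α` times volumes of shadows
corresponds to volumes upstairs. -/
def IsChart (a : Fin (d + 1) → ℝ) (p : (Fin (d + 1) → ℝ) →ₗ[ℝ] Fin d → ℝ) (α : ℝ) : Prop :=
  0 < α ∧ p a = 0 ∧ Function.Surjective p ∧
  (∀ K : Set (Fin (d + 1) → ℝ), IsCompact K → Convex ℝ K → ∀ s : ℝ, 0 ≤ s →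
    vol (grow a s K) = vol K + 2 * s * α * vol (p '' K)) ∧
  ∀ x : Fin d → Fin (d + 1) → ℝ,
    |(Matrix.of (Fin.cons a x)).det| = α * |(Matrix.of fun i => p (x i)).det|

/-- A family of shadow maps, with weight zero at the zero generators. -/
def Charts (a : Fin m → Fin (d + 1) → ℝ) (p : Fin m → (Fin (d + 1) → ℝ) →ₗ[ℝ] Fin d → ℝ)
    (α : Fin m → ℝ) : Prop :=
  ∀ i, (a i = 0 ∧ α i = 0) ∨ IsChart (a i) (p i) (α i)

/-- The weight of a tuple: a constant times facet area times the support value of the zonotope at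
the common normal of the tuple. -/
def weight (a : Fin m → Fin (d + 1) → ℝ) (f : Fin d → Fin m) : ℝ :=
  ∑ j, |(Matrix.of (Fin.snoc (fun i => a (f i)) (a j))).det|

/-- The support value of `L` at the common normal of a tuple, in the same normalisation. -/
def supDet (a : Fin m → Fin (d + 1) → ℝ) (L : Set (Fin (d + 1) → ℝ)) (f : Fin d → Fin m) : ℝ :=
  sSup ((fun x => |(Matrix.of (Fin.snoc (fun i => a (f i)) x)).det|) '' L)

/-- Every nonzero vector has a shadow map. -/
def ChartExists : Prop :=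
  ∀ (d : ℕ) (a : Fin (d + 1) → ℝ), a ≠ 0 → ∃ p α, IsChart a p α

/-- The volume of a zonotope is a multiaffine homogeneous polynomial with nonnegative
coefficients. -/
def Posynomial : Prop :=
  ∀ (d m : ℕ) (a : Fin m → Fin d → ℝ), ∃ C : Finset (Fin m) → ℝ,
    (∀ S, 0 ≤ C S) ∧ (∀ S, C S ≠ 0 → S.card = d) ∧
    ∀ t : Fin m → ℝ, (∀ i, 0 ≤ t i) → vol (zonot a t) = ∑ S, C S * ∏ i ∈ S, t i

/-- Cone decomposition of a zonotope and the gradient inequality for `log |Z(exp s)|`. -/
def PowerBound : Prop :=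
  ∀ (d m : ℕ) (a : Fin m → Fin (d + 1) → ℝ)
    (p : Fin m → (Fin (d + 1) → ℝ) →ₗ[ℝ] Fin d → ℝ) (α : Fin m → ℝ), Charts a p α →
    ((d : ℝ) + 1) * vol (zonot a 1) = ∑ i, 2 * α i * vol (p i '' zonot a 1) ∧
    (0 < vol (zonot a 1) → ∀ t : Fin m → ℝ, (∀ i, 0 < t i) →
      vol (zonot a 1) * Real.exp
          ((∑ i, 2 * α i * vol (p i '' zonot a 1) * Real.log (t i)) / vol (zonot a 1))
        ≤ vol (zonot a t))

/-- Minkowski's first inequality for a body and a zonotope. -/
def MinkowskiZono : Prop :=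
  ∀ (d m : ℕ) (a : Fin m → Fin (d + 1) → ℝ)
    (p : Fin m → (Fin (d + 1) → ℝ) →ₗ[ℝ] Fin d → ℝ) (α : Fin m → ℝ), Charts a p α →
    ∀ (L : Set (Fin (d + 1) → ℝ)) (t : Fin m → ℝ), IsBody L → (∀ i, 0 < t i) →
      vol (zonot a t) * vol L ^ d ≤
        ((∑ i, t i * (2 * α i * vol (p i '' L))) / ((d : ℝ) + 1)) ^ (d + 1)

/-- The logarithmic Minkowski inequality for the zonotope of `a` against every body. -/
def ZonotopeLogMinkowski : Prop :=
  ∀ (d m : ℕ) (a : Fin m → Fin (d + 1) → ℝ) (L : Set (Fin (d + 1) → ℝ)),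
    0 < vol (zonot a 1) → IsBody L →
    (∑ f : Fin d → Fin m, weight a f) * Real.log (vol L / vol (zonot a 1)) ≤
      ((d : ℝ) + 1) * ∑ f : Fin d → Fin m, weight a f * Real.log (supDet a L f / weight a f)

end Vale.Agent.P227.Zono
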