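import Vale.Agent.P227.Zono.Pins2

/-!
P227: the logarithmic Minkowski inequality for all zonoids, by approximation from zonotopes.
-/

noncomputable section

namespace Vale.Agent.P227.Zono

open MeasureTheory Set Matrix

variable {d : ℕ}

/-- The zonoid with generating measure `μ`: its support function is `y ↦ ∫ |y · v| ∂μ`. -/
def zonoid (μ : Measure (Fin d → ℝ)) : Set (Fin d → ℝ) :=
  {x | ∀ y : Fin d → ℝ, ∑ i, y i * x i ≤ ∫ v, |∑ i, y i * v i| ∂μ}

/-- The support value of the zonoid at the common normal of a tuple. -/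
def mweight (μ : Measure (Fin (d + 1) → ℝ)) (f : Fin d → Fin (d + 1) → ℝ) : ℝ :=
  ∫ v, |(Matrix.of (Fin.snoc f v)).det| ∂μ

/-- The support value of `L` at the common normal of a tuple. -/
def msupDet (L : Set (Fin (d + 1) → ℝ)) (f : Fin d → Fin (d + 1) → ℝ) : ℝ :=
  sSup ((fun x => |(Matrix.of (Fin.snoc f x)).det|) '' L)

/-- The inequality for one generating measure and one body. -/
def LogMinkowskiAt (μ : Measure (Fin (d + 1) → ℝ)) (L : Set (Fin (d + 1) → ℝ)) : Prop :=
  (∫ f, mweight μ f ∂Measure.pi fun _ : Fin d => μ) * Real.log (vol L / vol (zonoid μ)) ≤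
    ((d : ℝ) + 1) *
      ∫ f, mweight μ f * Real.log (msupDet L f / mweight μ f) ∂Measure.pi fun _ : Fin d => μ

/-- The logarithmic Minkowski inequality for every zonoid against every body. -/
def ZonoidLogMinkowski : Prop :=
  ∀ (d : ℕ) (μ : Measure (Fin (d + 1) → ℝ)) (R : ℝ), IsFiniteMeasure μ → (∀ᵐ v ∂μ, ‖v‖ ≤ R) →
    0 < vol (zonoid μ) → ∀ L : Set (Fin (d + 1) → ℝ), IsBody L → LogMinkowskiAt μ L

/-- The atomic case. -/
def AtomicLogMinkowski : Prop :=
  ∀ (d m : ℕ) (c : Fin m → ℝ) (v : Fin m → Fin (d + 1) → ℝ), (∀ j, 0 ≤ c j) →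
    0 < vol (zonoid (∑ j, ENNReal.ofReal (c j) • Measure.dirac (v j))) →
    ∀ L : Set (Fin (d + 1) → ℝ), IsBody L →
      LogMinkowskiAt (∑ j, ENNReal.ofReal (c j) • Measure.dirac (v j)) L

/-- Block: the atomic case is the zonotope theorem. -/
def AtomicBridge : Prop := ZonotopeLogMinkowski → AtomicLogMinkowski

/-- Block: the atomic case gives the general one by approximation. -/
def ZonoidLimit : Prop := AtomicLogMinkowski → ZonoidLogMinkowski

end Vale.Agent.P227.Zono
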