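import Vale.Agent.P227.Zono.Pins3

/-!
P227: the logarithmic Minkowski inequality passes from atomic generating measures to all of them.
-/

noncomputable section

namespace Vale.Agent.P227.Zono.LimitAux

open MeasureTheory Set Matrix Filter Topology
open scoped Pointwise

variable {d : ℕ}

/-- The dot product. -/
def dot (y x : Fin d → ℝ) : ℝ := ∑ i, y i * x i

lemma abs_dot_le (y x : Fin d → ℝ) : |dot y x| ≤ d * ‖y‖ * ‖x‖ := by
  refine (Finset.abs_sum_le_sum_abs _ _).trans ?_
  refine (Finset.sum_le_sum (g := fun _ => ‖y‖ * ‖x‖) fun i _ => ?_).trans (by simp [mul_assoc])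
  rw [abs_mul]
  exact mul_le_mul (norm_le_pi_norm y i) (norm_le_pi_norm x i) (abs_nonneg _) (norm_nonneg _)

/-- The cofactor vector of a tuple. -/
def nml (f : Fin d → Fin (d + 1) → ℝ) (j : Fin (d + 1)) : ℝ :=
  (-1) ^ (d + (j : ℕ)) * (Matrix.of fun i k => f i (j.succAbove k)).det

lemma det_snoc (f : Fin d → Fin (d + 1) → ℝ) (x : Fin (d + 1) → ℝ) :
    (Matrix.of (Fin.snoc f x)).det = dot (nml f) x := by
  rw [Matrix.det_succ_row _ (Fin.last d)]
  refine Finset.sum_congr rfl fun j _ => ?_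
  have h : (Matrix.of (Fin.snoc f x)).submatrix (Fin.last d).succAbove j.succAbove
      = Matrix.of fun i k => f i (j.succAbove k) := by
    ext i k
    simp [Fin.succAbove_last]
  rw [h]
  simp [nml]
  ring

lemma continuous_nml : Continuous (nml (d := d)) := by
  refine continuous_pi fun j => continuous_const.mul ?_
  exact Continuous.matrix_det (continuous_matrix fun i k =>
    (continuous_apply (j.succAbove k)).comp (continuous_apply i))

/-- The support function of the zonoid of a pushforward. -/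
def hsup (μ : Measure (Fin d → ℝ)) (φ : (Fin d → ℝ) → Fin d → ℝ) (y : Fin d → ℝ) : ℝ :=
  ∫ v, |dot y (φ v)| ∂μ

lemma continuous_dot : Continuous fun z : (Fin d → ℝ) × (Fin d → ℝ) => dot z.1 z.2 := by
  unfold dot
  fun_prop

variable {μ : Measure (Fin d → ℝ)} [IsFiniteMeasure μ] {φ ψ : (Fin d → ℝ) → Fin d → ℝ} {R : ℝ}

lemma integrable_dot (hφ : Measurable φ) (hφR : ∀ᵐ v ∂μ, ‖φ v‖ ≤ R) (y : Fin d → ℝ) :
    Integrable (fun v => |dot y (φ v)|) μ := by
  refine Integrable.of_bound ((Continuous.measurable (by unfold dot; fun_prop :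
    Continuous fun x : Fin d → ℝ => |dot y x|)).comp hφ).aestronglyMeasurable (d * ‖y‖ * R) ?_
  filter_upwards [hφR] with v hv
  rw [Real.norm_eq_abs, abs_abs]
  exact (abs_dot_le _ _).trans (mul_le_mul_of_nonneg_left hv (by positivity))

lemma hsup_sub (hφ : Measurable φ) (hφR : ∀ᵐ v ∂μ, ‖φ v‖ ≤ R) (hψ : Measurable ψ)
    (hψR : ∀ᵐ v ∂μ, ‖ψ v‖ ≤ R) (y : Fin d → ℝ) :
    |hsup μ φ y - hsup μ ψ y| ≤ d * ‖y‖ * ∫ v, ‖φ v - ψ v‖ ∂μ := by
  unfold hsup
  rw [← integral_sub (integrable_dot hφ hφR y) (integrable_dot hψ hψR y), ← integral_const_mul]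
  refine (abs_integral_le_integral_abs).trans (integral_mono_ae
    ((integrable_dot hφ hφR y).sub (integrable_dot hψ hψR y)).abs ?_ (Eventually.of_forall ?_))
  · refine (Integrable.of_bound ((hφ.sub hψ).norm.aestronglyMeasurable) (2 * R) ?_).const_mul _
    filter_upwards [hφR, hψR] with v h1 h2
    rw [norm_norm]
    exact (norm_sub_le _ _).trans (by linarith)
  · intro v
    refine (abs_abs_sub_abs_le_abs_sub _ _).trans ?_
    rw [show dot y (φ v) - dot y (ψ v) = dot y (φ v - ψ v) by
      simp [dot, mul_sub, Finset.sum_sub_distrib]]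
    exact abs_dot_le _ _

lemma continuous_hsup (hφ : Measurable φ) (hφR : ∀ᵐ v ∂μ, ‖φ v‖ ≤ R) :
    Continuous (hsup μ φ) := by
  refine continuous_iff_continuousAt.2 fun y₀ => continuousAt_of_dominated
    (bound := fun _ => d * (‖y₀‖ + 1) * R) (Eventually.of_forall fun y =>
      (integrable_dot hφ hφR y).aestronglyMeasurable) ?_ (integrable_const _) ?_
  · filter_upwards [Metric.closedBall_mem_nhds y₀ one_pos] with y hy
    filter_upwards [hφR] with v hv
    rw [Real.norm_eq_abs, abs_abs]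
    refine (abs_dot_le _ _).trans (mul_le_mul (mul_le_mul_of_nonneg_left ?_ (Nat.cast_nonneg _)) hv
      (norm_nonneg _) (by positivity))
    rw [Metric.mem_closedBall, dist_eq_norm] at hy
    linarith [norm_le_norm_add_norm_sub' y y₀, norm_sub_rev y y₀]
  · exact Eventually.of_forall fun v => (by unfold dot; fun_prop :
      Continuous fun y : Fin d → ℝ => |dot y (φ v)|).continuousAt

omit [IsFiniteMeasure μ] in
lemma hsup_smul (t : ℝ) (y : Fin d → ℝ) : hsup μ φ (t • y) = |t| * hsup μ φ y := by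
  unfold hsup
  rw [← integral_const_mul]
  refine integral_congr_ae (Eventually.of_forall fun v => ?_)
  simp [dot, ← abs_mul, Finset.mul_sum, mul_assoc]

/-- A continuous absolutely homogeneous function, positive off the origin, is a norm up to
constants. -/
lemma two_sided (g : (Fin (d + 1) → ℝ) → ℝ) (hg : Continuous g)
    (hs : ∀ t y, g (t • y) = |t| * g y) (hp : ∀ y, y ≠ 0 → 0 < g y) :
    ∃ c C : ℝ, 0 < c ∧ 0 < C ∧ ∀ y, c * ‖y‖ ≤ g y ∧ g y ≤ C * ‖y‖ := by
  have hS : IsCompact (Metric.sphere (0 : Fin (d + 1) → ℝ) 1) := isCompact_sphere _ _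
  have hne : (Metric.sphere (0 : Fin (d + 1) → ℝ) 1).Nonempty :=
    NormedSpace.sphere_nonempty.2 zero_le_one
  obtain ⟨a, ha, hmin⟩ := hS.exists_isMinOn hne hg.continuousOn
  obtain ⟨b, hb, hmax⟩ := hS.exists_isMaxOn hne hg.continuousOn
  have hpos : ∀ u ∈ Metric.sphere (0 : Fin (d + 1) → ℝ) 1, 0 < g u := fun u hu =>
    hp u (ne_zero_of_mem_unit_sphere ⟨u, hu⟩)
  refine ⟨g a, g b, hpos a ha, hpos b hb, fun y => ?_⟩
  rcases eq_or_ne y 0 with rfl | hy
  · have := hs 0 (0 : Fin (d + 1) → ℝ)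
    simp at this
    simp [this]
  · have hy' : 0 < ‖y‖ := norm_pos_iff.2 hy
    have hu : ‖y‖⁻¹ • y ∈ Metric.sphere (0 : Fin (d + 1) → ℝ) 1 := by
      simp [norm_smul, hy'.ne']
    have h := hs ‖y‖ (‖y‖⁻¹ • y)
    rw [smul_inv_smul₀ hy'.ne', abs_of_pos hy'] at h
    rw [h, mul_comm (g a), mul_comm (g b)]
    exact ⟨mul_le_mul_of_nonneg_left (hmin hu) hy'.le, mul_le_mul_of_nonneg_left (hmax hu) hy'.le⟩

lemma hyperplane_null {y : Fin d → ℝ} (hy : y ≠ 0) :
    volume {x : Fin d → ℝ | dot y x = 0} = 0 := by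
  let l : (Fin d → ℝ) →ₗ[ℝ] ℝ := ∑ i, y i • LinearMap.proj i
  have hl : ∀ x, l x = dot y x := fun x => by simp [l, dot]
  have hne : LinearMap.ker l ≠ ⊤ := fun h => by
    have h0 : dot y y = 0 := by rw [← hl, LinearMap.ker_eq_top.1 h]; rfl
    refine hy (funext fun i => ?_)
    have := (Finset.sum_eq_zero_iff_of_nonneg fun j _ => mul_self_nonneg (y j)).1 h0 i
      (Finset.mem_univ i)
    simpa using this
  have := Measure.addHaar_submodule (volume : Measure (Fin d → ℝ)) _ hne
  rwa [show ((LinearMap.ker l : Submodule ℝ (Fin d → ℝ)) : Set (Fin d → ℝ))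
    = {x | dot y x = 0} by ext; simp [hl]] at this

/-- The support function of a symmetric body. -/
def bsup (L : Set (Fin d → ℝ)) (y : Fin d → ℝ) : ℝ := sSup ((fun x => |dot y x|) '' L)

lemma continuous_bsup {L : Set (Fin d → ℝ)} (hL : IsCompact L) : Continuous (bsup L) := by
  refine hL.continuous_sSup (f := fun y x => |dot y x|) ?_
  exact continuous_dot.abs

lemma bsup_smul (L : Set (Fin d → ℝ)) (t : ℝ) (y : Fin d → ℝ) :
    bsup L (t • y) = |t| * bsup L y := by
  unfold bsup
  rw [← smul_eq_mul |t|, ← Real.sSup_smul_of_nonneg (abs_nonneg t), ← Set.image_smul,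
    Set.image_image]
  congr 1
  refine Set.image_congr' fun x => ?_
  simp [dot, ← abs_mul, Finset.mul_sum, mul_assoc]

lemma bsup_pos {L : Set (Fin d → ℝ)} (hL : IsBody L) {y : Fin d → ℝ} (hy : y ≠ 0) :
    0 < bsup L y := by
  obtain ⟨hc, -, -, hv⟩ := hL
  have hbd : BddAbove ((fun x => |dot y x|) '' L) :=
    (hc.image (continuous_dot.comp (Continuous.prodMk_right y)).abs).bddAbove
  by_contra h
  push Not at h
  have hsub : L ⊆ {x | dot y x = 0} := fun x hx =>
    abs_nonpos_iff.1 ((le_csSup hbd (mem_image_of_mem _ hx)).trans h)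
  have := measure_mono_null hsub (hyperplane_null hy)
  simp [vol, this] at hv

omit [IsFiniteMeasure μ] in
lemma zonoid_eq (hφ : Measurable φ) :
    zonoid (μ.map φ) = {x | ∀ y, dot y x ≤ hsup μ φ y} := by
  ext x
  refine forall_congr' fun y => ?_
  rw [integral_map hφ.aemeasurable (by fun_prop : Continuous fun v : Fin d → ℝ =>
    |∑ i, y i * v i|).aestronglyMeasurable]
  rfl

lemma isBounded_supBody (h : (Fin d → ℝ) → ℝ) :
    Bornology.IsBounded {x : Fin d → ℝ | ∀ y, dot y x ≤ h y} := by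
  refine Metric.isBounded_closedBall.subset (t := Metric.closedBall 0
    (∑ i, (|h (Pi.single i 1)| + |h (Pi.single i (-1))|))) fun x hx => ?_
  rw [mem_closedBall_zero_iff, pi_norm_le_iff_of_nonneg (Finset.sum_nonneg fun i _ => by positivity)]
  intro i
  refine le_trans ?_ (Finset.single_le_sum (f := fun i =>
    |h (Pi.single i 1)| + |h (Pi.single i (-1))|) (fun j _ => by positivity) (Finset.mem_univ i))
  have h1 : x i ≤ h (Pi.single i 1) := by simpa [dot, Pi.single_apply] using hx (Pi.single i 1)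
  have h2 : -x i ≤ h (Pi.single i (-1)) := by
    simpa [dot, Pi.single_apply] using hx (Pi.single i (-1))
  rw [Real.norm_eq_abs, abs_le]
  constructor <;>
    linarith [le_abs_self (h (Pi.single i 1)), le_abs_self (h (Pi.single i (-1))),
      abs_nonneg (h (Pi.single i 1)), abs_nonneg (h (Pi.single i (-1)))]

lemma vol_scale {h g : (Fin d → ℝ) → ℝ} {t : ℝ} (ht : 0 < t) (hle : ∀ y, h y ≤ t * g y) :
    vol {x | ∀ y, dot y x ≤ h y} ≤ t ^ d * vol {x | ∀ y, dot y x ≤ g y} := by
  have hsub : {x : Fin d → ℝ | ∀ y, dot y x ≤ h y} ⊆ t • {x | ∀ y, dot y x ≤ g y} := fun x hx => by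
    rw [Set.mem_smul_set_iff_inv_smul_mem₀ ht.ne']
    intro y
    have hdot : dot y (t⁻¹ • x) = t⁻¹ * dot y x := by
      simp only [dot, Finset.mul_sum, Pi.smul_apply, smul_eq_mul]
      exact Finset.sum_congr rfl fun i _ => by ring
    rw [hdot, inv_mul_le_iff₀ ht]
    exact (hx y).trans (hle y)
  have h1 := ENNReal.toReal_mono ((isBounded_supBody g).smul₀ t).measure_lt_top.ne
    (measure_mono (μ := volume) hsub)
  rwa [Measure.addHaar_smul_of_nonneg _ ht.le, Module.finrank_fin_fun, ENNReal.toReal_mul,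
    ENNReal.toReal_ofReal (by positivity)] at h1

/-- Dominated convergence of the entropy integrand. -/
lemma tendsto_entropy {ι : Type*} {l : Filter ι} {h : ι → (Fin (d + 1) → ℝ) → ℝ}
    {h₀ g : (Fin (d + 1) → ℝ) → ℝ} {y : ι → Fin (d + 1) → ℝ} {y₀ : Fin (d + 1) → ℝ} {M : ℝ}
    (hy : Tendsto y l (𝓝 y₀)) (hh : Tendsto (fun k => h k (y k)) l (𝓝 (h₀ y₀)))
    (hg : Continuous g) (hg0 : ∀ z, z ≠ 0 → 0 < g z) (hh0 : ∀ z, z ≠ 0 → 0 < h₀ z)
    (hz : h₀ 0 = 0)
    (hb : ∀ᶠ k in l, |h k (y k) * Real.log (g (y k) / h k (y k))| ≤ M * ‖y k‖) :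
    Tendsto (fun k => h k (y k) * Real.log (g (y k) / h k (y k))) l
      (𝓝 (h₀ y₀ * Real.log (g y₀ / h₀ y₀))) := by
  rcases eq_or_ne y₀ 0 with rfl | hne
  · rw [hz, zero_mul]
    refine squeeze_zero_norm' hb ?_
    simpa using (tendsto_norm.comp hy).const_mul M
  · exact hh.mul (((hg.tendsto y₀).comp hy |>.div hh (hh0 _ hne).ne').log
      (div_pos (hg0 _ hne) (hh0 _ hne)).ne')

lemma entropy_bound {a b n c C c' C' : ℝ} (hn : 0 ≤ n) (hc : 0 < c) (hC : 0 < C) (hc' : 0 < c')
    (hC' : 0 < C') (ha : c * n ≤ a) (ha' : a ≤ C * n) (hb : c' * n ≤ b) (hb' : b ≤ C' * n) :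
    |a * Real.log (b / a)| ≤ C * (|Real.log (C' / c)| + |Real.log (c' / C)|) * n := by
  rcases hn.eq_or_lt with h0 | h0
  · have : a = 0 := le_antisymm (by rw [← h0] at ha'; simpa using ha')
      (by rw [← h0] at ha; simpa using ha)
    simp [this, ← h0]
  · have ha0 : 0 < a := (mul_pos hc h0).trans_le ha
    have hb0 : 0 < b := (mul_pos hc' h0).trans_le hb
    have h1 : Real.log (b / a) ≤ Real.log (C' / c) := by
      refine Real.log_le_log (div_pos hb0 ha0) ?_
      rw [div_le_div_iff₀ ha0 hc]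
      nlinarith
    have h2 : Real.log (c' / C) ≤ Real.log (b / a) := by
      refine Real.log_le_log (div_pos hc' hC) ?_
      rw [div_le_div_iff₀ hC ha0]
      nlinarith
    rw [abs_mul, abs_of_pos ha0]
    calc a * |Real.log (b / a)| ≤ (C * n) * (|Real.log (C' / c)| + |Real.log (c' / C)|) := by
          refine mul_le_mul ha' ?_ (abs_nonneg _) (by positivity)
          rw [abs_le]
          constructor <;> linarith [le_abs_self (Real.log (C' / c)), neg_abs_le (Real.log (c' / C)),
            abs_nonneg (Real.log (C' / c)), abs_nonneg (Real.log (c' / C))]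
      _ = _ := by ring

/-- A pushforward by a simple map is atomic. -/
lemma map_simple_atomic (μ : Measure (Fin d → ℝ)) [IsFiniteMeasure μ]
    (φ : SimpleFunc (Fin d → ℝ) (Fin d → ℝ)) :
    ∃ (m : ℕ) (c : Fin m → ℝ) (v : Fin m → Fin d → ℝ), (∀ j, 0 ≤ c j) ∧
      μ.map φ = ∑ j, ENNReal.ofReal (c j) • Measure.dirac (v j) := by
  classical
  set e := φ.range.equivFin.symm
  refine ⟨φ.range.card, fun j => (μ (φ ⁻¹' {(e j : Fin d → ℝ)})).toReal, fun j => e j,
    fun j => ENNReal.toReal_nonneg, ?_⟩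
  ext s hs
  rw [Measure.map_apply φ.measurable hs, Measure.finsetSum_apply,
    show φ ⁻¹' s = φ ⁻¹' ↑(φ.range.filter (· ∈ s)) by ext v; simp,
    ← sum_measure_preimage_singleton _ fun y _ => φ.measurableSet_fiber y, Finset.sum_filter,
    ← Finset.sum_coe_sort φ.range, ← e.sum_comp]
  refine Finset.sum_congr rfl fun j _ => ?_
  simp [ENNReal.ofReal_toReal (measure_ne_top μ _), Set.indicator]

end LimitAux

open MeasureTheory Set Filter Topology LimitAux in
/-- The atomic case gives the inequality for every zonoid. -/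
theorem zonoidLimit : ZonoidLimit := by
  intro hA d μ R₀ hμ hR₀ hv L hL
  set R := max R₀ 0 with hRdef
  have hR : ∀ᵐ v ∂μ, ‖v‖ ≤ R := hR₀.mono fun v hv => hv.trans (le_max_left _ _)
  set B : Set (Fin (d + 1) → ℝ) := Metric.closedBall 0 R with hB
  have h0B : (0 : Fin (d + 1) → ℝ) ∈ B := Metric.mem_closedBall_self (le_max_right _ _)
  set φ : ℕ → SimpleFunc (Fin (d + 1) → ℝ) (Fin (d + 1) → ℝ) :=
    fun k => SimpleFunc.approxOn id measurable_id B 0 h0B k with hφdef
  have hφR : ∀ k v, ‖φ k v‖ ≤ R := fun k v =>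
    mem_closedBall_zero_iff.1 (SimpleFunc.approxOn_mem measurable_id h0B k v)
  have hφR' : ∀ k, ∀ᵐ v ∂μ, ‖φ k v‖ ≤ R := fun k => Eventually.of_forall (hφR k)
  have hφlim : ∀ v, ‖v‖ ≤ R → Tendsto (fun k => φ k v) atTop (𝓝 v) := fun v hv =>
    SimpleFunc.tendsto_approxOn measurable_id h0B (subset_closure (mem_closedBall_zero_iff.2 hv))
  set ε : ℕ → ℝ := fun k => ∫ v, ‖φ k v - v‖ ∂μ with hεdef
  have hε : Tendsto ε atTop (𝓝 0) := by
    have := tendsto_integral_of_dominated_convergence (μ := μ) (fun _ => 2 * R)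
      (F := fun k v => ‖φ k v - v‖) (f := fun _ => (0 : ℝ))
      (fun k => ((φ k).measurable.sub measurable_id).norm.aestronglyMeasurable)
      (integrable_const _)
      (fun k => by
        filter_upwards [hR] with v hv
        rw [norm_norm]
        exact (norm_sub_le _ _).trans (by linarith [hφR k v]))
      (by
        filter_upwards [hR] with v hv
        exact tendsto_iff_norm_sub_tendsto_zero.1 (hφlim v hv))
    simpa using this
  -- the support functions
  set H := hsup μ (id : (Fin (d + 1) → ℝ) → _) with hHdef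
  set Hk : ℕ → (Fin (d + 1) → ℝ) → ℝ := fun k => hsup μ (φ k) with hHkdef
  have hHc : Continuous H := continuous_hsup measurable_id hR
  have hHkc : ∀ k, Continuous (Hk k) := fun k => continuous_hsup (φ k).measurable (hφR' k)
  have hZ : zonoid μ = {x | ∀ y, dot y x ≤ H y} := rfl
  have hH0 : ∀ y, y ≠ 0 → 0 < H y := fun y hy => by
    by_contra h
    push Not at h
    have hsub : zonoid μ ⊆ {x | dot y x = 0} := fun x hx => by
      rw [hZ] at hx
      have h1 := (hx y).trans h
      have h2 := hx ((-1 : ℝ) • y)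
      rw [hHdef, hsup_smul, abs_neg, abs_one, one_mul, ← hHdef] at h2
      have h3 : dot ((-1 : ℝ) • y) x = -dot y x := by simp [dot]
      exact le_antisymm h1 (by linarith)
    have := measure_mono_null hsub (hyperplane_null hy)
    simp [vol, this] at hv
  obtain ⟨c, C, hc, hC, hHb⟩ := two_sided H hHc (fun t y => hsup_smul t y) hH0
  have hBc := continuous_bsup hL.1
  have hB0 : ∀ y, y ≠ 0 → 0 < bsup L y := fun y hy => bsup_pos hL hy
  obtain ⟨c', C', hc', hC', hBb⟩ := two_sided (bsup L) hBc (bsup_smul L) hB0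
  set D : ℝ := ((d + 1 : ℕ) : ℝ) with hD
  have hclose : ∀ k y, |Hk k y - H y| ≤ D * ‖y‖ * ε k := fun k y =>
    hsup_sub (φ k).measurable (hφR' k) measurable_id hR y
  have hrel : ∀ k y, |Hk k y - H y| ≤ D * ε k / c * H y := fun k y => by
    refine (hclose k y).trans ?_
    rw [div_mul_eq_mul_div, le_div_iff₀ hc]
    calc D * ‖y‖ * ε k * c = D * ε k * (c * ‖y‖) := by ring
      _ ≤ D * ε k * H y := mul_le_mul_of_nonneg_left (hHb y).1
          (mul_nonneg (Nat.cast_nonneg _) (integral_nonneg fun _ => norm_nonneg _))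
  have hδ : Tendsto (fun k => D * ε k / c) atTop (𝓝 0) := by
    simpa using (hε.const_mul D).div_const c
  have hsmall : ∀ᶠ k in atTop, D * ε k / c ≤ 1 / 2 := hδ.eventually (ge_mem_nhds (by norm_num))
  have hH' : ∀ y, 0 ≤ H y := fun y => integral_nonneg fun _ => abs_nonneg _
  have hHkb : ∀ᶠ k in atTop, ∀ y, c / 2 * ‖y‖ ≤ Hk k y ∧ Hk k y ≤ 2 * C * ‖y‖ :=
    hsmall.mono fun k hk y => by
      have h1 := abs_le.1 ((hrel k y).trans (mul_le_mul_of_nonneg_right hk (hH' y)))
      constructor <;> nlinarith [hHb y, hH' y]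
  -- volumes
  set V : ℕ → ℝ := fun k => vol (zonoid (μ.map (φ k))) with hVdef
  have hVlim : Tendsto V atTop (𝓝 (vol (zonoid μ))) := by
    have hδ0 : ∀ k, 0 ≤ D * ε k / c := fun k => div_nonneg (mul_nonneg (Nat.cast_nonneg _)
      (integral_nonneg fun _ => norm_nonneg _)) hc.le
    refine tendsto_of_tendsto_of_tendsto_of_le_of_le'
      (g := fun k => (1 - D * ε k / c) ^ (d + 1) * vol (zonoid μ))
      (h := fun k => (1 + D * ε k / c) ^ (d + 1) * vol (zonoid μ)) ?_ ?_ ?_ ?_
    · simpa using ((hδ.const_sub 1).pow (d + 1)).mul_const (vol (zonoid μ))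
    · simpa using ((hδ.const_add 1).pow (d + 1)).mul_const (vol (zonoid μ))
    · filter_upwards [hsmall] with k hk
      have hpos : 0 < 1 - D * ε k / c := by linarith
      have := vol_scale (h := H) (g := Hk k) (inv_pos.2 hpos) fun y => by
        rw [le_inv_mul_iff₀ hpos]
        nlinarith [abs_le.1 (hrel k y)]
      rw [← zonoid_eq (φ k).measurable, ← hZ, inv_pow,
        le_inv_mul_iff₀ (pow_pos hpos _)] at this
      exact this
    · refine Eventually.of_forall fun k => ?_
      have := vol_scale (h := Hk k) (g := H) (show 0 < 1 + D * ε k / c by linarith [hδ0 k])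
        fun y => by nlinarith [abs_le.1 (hrel k y)]
      rwa [← zonoid_eq (φ k).measurable, ← hZ] at this
  have hVpos : ∀ᶠ k in atTop, 0 < V k := hVlim.eventually (lt_mem_nhds hv)
  -- the integrands
  set π := Measure.pi fun _ : Fin d => μ with hπ
  set P : ℕ → (Fin d → Fin (d + 1) → ℝ) → Fin d → Fin (d + 1) → ℝ :=
    fun k f i => φ k (f i) with hPdef
  have hPm : ∀ k, Measurable (P k) := fun k =>
    measurable_pi_lambda _ fun i => (φ k).measurable.comp (measurable_pi_apply i)
  have hnm : ∀ k, Measurable fun f => nml (P k f) := fun k =>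
    continuous_nml.measurable.comp (hPm k)
  obtain ⟨N, hN⟩ := ((isCompact_univ_pi fun _ : Fin d => isCompact_closedBall
    (0 : Fin (d + 1) → ℝ) R).image continuous_nml).isBounded.exists_norm_le
  have hball : ∀ᵐ f ∂π, ∀ i, ‖f i‖ ≤ R := ae_all_iff.2 fun i =>
    (Measure.quasiMeasurePreserving_eval (fun _ : Fin d => μ) i).ae hR
  have hnN : ∀ k f, ‖nml (P k f)‖ ≤ N := fun k f =>
    hN _ ⟨P k f, fun i _ => mem_closedBall_zero_iff.2 (hφR k (f i)), rfl⟩
  have hnlim : ∀ᵐ f ∂π, Tendsto (fun k => nml (P k f)) atTop (𝓝 (nml f)) := hball.mono fun f hf =>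
    (continuous_nml.tendsto f).comp (tendsto_pi_nhds.2 fun i => hφlim _ (hf i))
  have hHlim : ∀ᵐ f ∂π, Tendsto (fun k => Hk k (nml (P k f))) atTop (𝓝 (H (nml f))) := by
    filter_upwards [hnlim] with f hf
    have h1 : Tendsto (fun k => Hk k (nml (P k f)) - H (nml (P k f))) atTop (𝓝 0) := by
      refine squeeze_zero_norm (fun k => hclose k (nml (P k f))) ?_
      simpa using ((tendsto_norm.comp hf).const_mul D).mul hε
    simpa using h1.add ((hHc.tendsto _).comp hf)
  set M : ℝ := 2 * C * (|Real.log (C' / (c / 2))| + |Real.log (c' / (2 * C))|) with hM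
  have hM0 : 0 ≤ M := by positivity
  have hbnd : ∀ᶠ k in atTop, ∀ y, |Hk k y * Real.log (bsup L y / Hk k y)| ≤ M * ‖y‖ :=
    hHkb.mono fun k hk y => entropy_bound (norm_nonneg y) (by positivity) (by positivity) hc' hC'
      (hk y).1 (hk y).2 (hBb y).1 (hBb y).2
  have hI1 : Tendsto (fun k => ∫ f, Hk k (nml (P k f)) ∂π) atTop (𝓝 (∫ f, H (nml f) ∂π)) := by
    refine tendsto_integral_filter_of_dominated_convergence (fun _ => 2 * C * N)
      (Eventually.of_forall fun k => ((hHkc k).measurable.comp (hnm k)).aestronglyMeasurable)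
      (hHkb.mono fun k hk => Eventually.of_forall fun f => ?_) (integrable_const _) hHlim
    rw [Real.norm_eq_abs, abs_of_nonneg (show 0 ≤ Hk k (nml (P k f)) from
      integral_nonneg fun _ => abs_nonneg _)]
    exact (hk _).2.trans (mul_le_mul_of_nonneg_left (hnN k f) (by positivity))
  have hI2 : Tendsto (fun k => ∫ f, Hk k (nml (P k f)) *
      Real.log (bsup L (nml (P k f)) / Hk k (nml (P k f))) ∂π) atTop
      (𝓝 (∫ f, H (nml f) * Real.log (bsup L (nml f) / H (nml f)) ∂π)) := by
    refine tendsto_integral_filter_of_dominated_convergence (fun _ => M * N)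
      (Eventually.of_forall fun k => (((hHkc k).measurable.mul (Real.measurable_log.comp
        (hBc.measurable.div (hHkc k).measurable))).comp (hnm k)).aestronglyMeasurable)
      (hbnd.mono fun k hk => Eventually.of_forall fun f =>
        (hk _).trans (mul_le_mul_of_nonneg_left (hnN k f) hM0)) (integrable_const _) ?_
    filter_upwards [hnlim, hHlim] with f hf hf'
    exact tendsto_entropy hf hf' hBc hB0 hH0 (le_antisymm (by simpa using (hHb 0).2) (hH' 0))
      (hbnd.mono fun k hk => hk _)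
  -- the limit
  have hw : ∀ f, mweight μ f = H (nml f) := fun f => by
    simp only [mweight, hHdef, hsup, det_snoc, id_eq]
  have hs : ∀ f, msupDet L f = bsup L (nml f) := fun f => by
    simp only [msupDet, bsup, det_snoc]
  show (∫ f, mweight μ f ∂π) * _ ≤ ((d : ℝ) + 1) * ∫ f, mweight μ f * _ ∂π
  simp only [hw, hs]
  have hLv : 0 < vol L := hL.2.2.2
  refine le_of_tendsto_of_tendsto (hI1.mul (((tendsto_const_nhds (x := vol L)).div hVlim hv.ne').log
    (div_pos hLv hv).ne')) (hI2.const_mul ((d : ℝ) + 1)) ?_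
  filter_upwards [hVpos] with k hk
  obtain ⟨m, w, x, hw0, hmap⟩ := map_simple_atomic μ (φ k)
  have hat := hA d m w x hw0 (by rw [← hmap]; exact hk) L hL
  rw [← hmap] at hat
  have hwk : ∀ f, mweight (μ.map (φ k)) f = Hk k (nml f) := fun f => by
    show ∫ v, _ ∂μ.map (φ k) = _
    simp only [det_snoc]
    exact integral_map (φ k).measurable.aemeasurable
      (continuous_dot.comp (Continuous.prodMk_right (nml f))).abs.aestronglyMeasurable
  have hpi : (Measure.pi fun _ : Fin d => μ.map (φ k)) = π.map (P k) :=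
    (Measure.pi_map_pi fun _ => (φ k).measurable.aemeasurable).symm
  unfold LogMinkowskiAt at hat
  simp only [hwk, hs, hpi] at hat
  rw [integral_map (f := fun f => Hk k (nml f)) (hPm k).aemeasurable
    ((hHkc k).comp continuous_nml).aestronglyMeasurable] at hat
  rw [integral_map (f := fun f => Hk k (nml f) * Real.log (bsup L (nml f) / Hk k (nml f)))
    (hPm k).aemeasurable (((hHkc k).measurable.mul (Real.measurable_log.comp
        (hBc.measurable.div (hHkc k).measurable))).comp
          continuous_nml.measurable).aestronglyMeasurable] at hat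
  exact hat

end Vale.Agent.P227.Zono
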